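import Vale.Agent.P113.Defs

open Set MeasureTheory
open scoped ContDiff

namespace Vale.Agent.P113

/-- Coefficients of the derivatives of `exp(-1/(1-t))`. -/
def lah : ℕ → ℕ → ℕ
  | 0, 0 => 1
  | 0, _ + 1 => 0
  | k + 1, 0 => k * lah k 0
  | k + 1, j + 1 => lah k j + (k + (j + 1)) * lah k (j + 1)

theorem lah_eq_zero : ∀ (k j : ℕ), k < j → lah k j = 0
  | 0, j + 1, _ => rfl
  | k + 1, j + 1, h => by
    simp only [lah]
    rw [lah_eq_zero k j (by omega), lah_eq_zero k (j + 1) (by omega)]
    simp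

/-- The polynomial `P_k` with `d^k/dt^k exp(-1/(1-t)) = P_k(1/(1-t)) exp(-1/(1-t))`. -/
noncomputable def lahPoly (k : ℕ) : Polynomial ℝ :=
  ∑ j ∈ Finset.range (k + 1), Polynomial.C ((-1 : ℝ) ^ j * lah k j) * Polynomial.X ^ (k + j)

open Polynomial in
theorem lahPoly_succ (k : ℕ) :
    lahPoly (k + 1) = X ^ 2 * (derivative (lahPoly k) - lahPoly k) := by
  have h1 : X ^ 2 * (derivative (lahPoly k) - lahPoly k)
      = ∑ j ∈ Finset.range (k + 1), (C ((-1 : ℝ) ^ j * ((k + j : ℕ) * lah k j)) * X ^ (k + 1 + j)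
        + C ((-1 : ℝ) ^ (j + 1) * lah k j) * X ^ (k + 1 + (j + 1))) := by
    unfold lahPoly
    rw [derivative_sum, ← Finset.sum_sub_distrib, Finset.mul_sum]
    apply Finset.sum_congr rfl
    intro j _
    rw [derivative_C_mul, derivative_X_pow]
    rcases Nat.eq_zero_or_pos (k + j) with h0 | h0
    · have hk : k = 0 := by omega
      have hj : j = 0 := by omega
      subst hk hj
      simp [lah]
    · obtain ⟨m, hm⟩ : ∃ m, k + j = m + 1 := ⟨k + j - 1, by omega⟩
      have e1 : k + 1 + j = m + 2 := by omega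
      have e2 : k + 1 + (j + 1) = m + 3 := by omega
      rw [e1, e2, hm]
      simp only [Nat.add_sub_cancel, map_mul, map_pow, map_neg, map_one, map_natCast, pow_succ]
      ring
  rw [h1, Finset.sum_add_distrib]
  unfold lahPoly
  rw [Finset.sum_range_succ' _ (k + 1)]
  have h2 : ∑ j ∈ Finset.range (k + 1), C ((-1 : ℝ) ^ j * ((k + j : ℕ) * lah k j)) * X ^ (k + 1 + j)
      = ∑ j ∈ Finset.range (k + 1), C ((-1 : ℝ) ^ (j + 1) * ((k + (j + 1) : ℕ) * lah k (j + 1)))
        * X ^ (k + 1 + (j + 1)) + C ((k : ℝ) * lah k 0) * X ^ (k + 1) := by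
    have h3 := Finset.sum_range_succ
      (fun j => C ((-1 : ℝ) ^ j * ((k + j : ℕ) * lah k j)) * (X : ℝ[X]) ^ (k + 1 + j)) (k + 1)
    have h4 := Finset.sum_range_succ'
      (fun j => C ((-1 : ℝ) ^ j * ((k + j : ℕ) * lah k j)) * (X : ℝ[X]) ^ (k + 1 + j)) (k + 1)
    rw [lah_eq_zero k (k + 1) (by omega)] at h3
    simp only [Nat.cast_zero, mul_zero, map_zero, zero_mul, add_zero] at h3
    rw [← h3, h4]
    simp
  rw [h2]
  have h5 : ∀ j, lah (k + 1) (j + 1) = lah k j + (k + (j + 1)) * lah k (j + 1) := fun j => rfl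
  have h6 : lah (k + 1) 0 = k * lah k 0 := rfl
  rw [h6]
  simp only [h5]
  have h7 : ∀ j ∈ Finset.range (k + 1),
      C ((-1 : ℝ) ^ (j + 1) * ((lah k j + (k + (j + 1)) * lah k (j + 1) : ℕ) : ℝ))
        * (X : ℝ[X]) ^ (k + 1 + (j + 1))
      = C ((-1 : ℝ) ^ (j + 1) * ((k + (j + 1) : ℕ) * lah k (j + 1))) * X ^ (k + 1 + (j + 1))
        + C ((-1 : ℝ) ^ (j + 1) * lah k j) * X ^ (k + 1 + (j + 1)) := by
    intro j _
    rw [← add_mul, ← C_add]
    congr 2
    push_cast
    ring
  rw [Finset.sum_congr rfl h7, Finset.sum_add_distrib]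
  simp only [pow_zero, one_mul, Nat.cast_mul, add_zero]
  ring

/-- The `k`-th derivative of `t ↦ exp(-1/(1-t))` (`t < 1`), continued by `0`. -/
noncomputable def bumpD (k : ℕ) (t : ℝ) : ℝ :=
  (lahPoly k).eval (1 - t)⁻¹ * expNegInvGlue (1 - t)

theorem bumpD_zero (t : ℝ) : bumpD 0 t = expNegInvGlue (1 - t) := by
  simp [bumpD, lahPoly, lah]

theorem hasDerivAt_bumpD (k : ℕ) (t : ℝ) : HasDerivAt (bumpD k) (bumpD (k + 1) t) t := by
  have h1 := expNegInvGlue.hasDerivAt_polynomial_eval_inv_mul (lahPoly k) (1 - t)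
  have h2 : HasDerivAt (fun s : ℝ => 1 - s) (-1) t := by
    simpa using (hasDerivAt_id t).const_sub 1
  have h3 := h1.comp t h2
  unfold bumpD
  refine h3.congr_deriv ?_
  rw [lahPoly_succ]
  simp only [Polynomial.eval_mul, Polynomial.eval_pow, Polynomial.eval_X, Polynomial.eval_sub]
  ring

theorem mixedD_bump (l : List (Option (Fin 3))) (b : ℝ) :
    ∀ t, 0 ≤ t → ∀ x, mixedD l (fun s _ => b * bumpD 0 s) t x
      = if l.all (fun d => d.isNone) then b * bumpD l.length t else 0 := by
  induction l with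
  | nil =>
    intro t _ x
    simp [mixedD]
  | cons d l ih =>
    intro t ht x
    change partialD d (mixedD l (fun s _ => b * bumpD 0 s)) t x = _
    cases d with
    | none =>
      simp only [partialD, Option.elim_none, List.all_cons, Option.isNone_none, Bool.true_and,
        List.length_cons]
      have hcongr : derivWithin (fun s => mixedD l (fun s _ => b * bumpD 0 s) s x) (Ici 0) t
          = derivWithin (fun s => if l.all (fun d => d.isNone) then b * bumpD l.length s else 0)
            (Ici 0) t := by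
        apply derivWithin_congr
        · intro s hs
          exact ih s hs x
        · exact ih t ht x
      rw [hcongr]
      by_cases hl : l.all (fun d => d.isNone) = true
      · simp only [hl, if_true]
        exact (((hasDerivAt_bumpD l.length t).const_mul b).hasDerivWithinAt).derivWithin
          (uniqueDiffOn_Ici 0 t ht)
      · simp only [hl]
        simp
    | some i =>
      simp only [partialD, Option.elim_some, List.all_cons, Option.isNone_some, Bool.false_and]
      have : mixedD l (fun s _ => b * bumpD 0 s) t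
          = fun _ => if l.all (fun d => d.isNone) then b * bumpD l.length t else 0 := by
        funext y
        exact ih t ht y
      rw [this]
      unfold dX
      simp

theorem mixedD_zero (l : List (Option (Fin 3))) :
    ∀ t, 0 ≤ t → ∀ x, mixedD l (fun _ _ => (0 : ℝ)) t x = 0 := by
  intro t ht x
  have h := mixedD_bump l 0 t ht x
  simpa using h

end Vale.Agent.P113
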