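import Vale.Agent.P113.Uniq
import Vale.Agent.P113.Deriv

open Set MeasureTheory
open scoped ContDiff

namespace Vale.Agent.P113

/-- The force of amplitude `b`. -/
noncomputable def forceOf (b : ℝ) : VField := fun t _ => Pi.single 0 (b * bumpD 0 t)

/-- The primitive of the bump. -/
noncomputable def G (t : ℝ) : ℝ := ∫ s in (0 : ℝ)..t, bumpD 0 s

/-- The second primitive of the bump. -/
noncomputable def GG (t : ℝ) : ℝ := ∫ s in (0 : ℝ)..t, G s

/-- The velocity of amplitude `b`. -/
noncomputable def velOf (b : ℝ) : VField := fun t _ => Pi.single 0 (b * G t)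

theorem bumpD_zero_eq : bumpD 0 = fun t => expNegInvGlue (1 - t) := by
  funext t
  exact bumpD_zero t

theorem contDiff_bump : ContDiff ℝ ∞ (bumpD 0) := by
  rw [bumpD_zero_eq]
  exact expNegInvGlue.contDiff.comp (contDiff_const.sub contDiff_id)

theorem hasDerivAt_G (t : ℝ) : HasDerivAt G (bumpD 0 t) t :=
  (contDiff_bump.continuous).integral_hasStrictDerivAt 0 t |>.hasDerivAt

theorem contDiff_G : ContDiff ℝ ∞ G := by
  rw [contDiff_infty_iff_deriv]
  refine ⟨fun t => (hasDerivAt_G t).differentiableAt, ?_⟩
  have : deriv G = bumpD 0 := by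
    funext t
    exact (hasDerivAt_G t).deriv
  rw [this]
  exact contDiff_bump

theorem hasDerivAt_GG (t : ℝ) : HasDerivAt GG (G t) t :=
  (contDiff_G.continuous).integral_hasStrictDerivAt 0 t |>.hasDerivAt

theorem G_zero : G 0 = 0 := by simp [G]

theorem GG_zero : GG 0 = 0 := by simp [GG]

theorem bump_pos {t : ℝ} (ht : t < 1) : 0 < bumpD 0 t := by
  rw [bumpD_zero]
  exact expNegInvGlue.pos_of_pos (by linarith)

theorem bump_eq_zero {t : ℝ} (ht : 1 ≤ t) : bumpD 0 t = 0 := by
  rw [bumpD_zero]
  exact expNegInvGlue.zero_of_nonpos (by linarith)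

theorem G_pos {t : ℝ} (h0 : 0 < t) (h1 : t ≤ 1) : 0 < G t := by
  apply intervalIntegral.intervalIntegral_pos_of_pos_on
  · exact (contDiff_bump.continuous).intervalIntegrable _ _
  · intro s hs
    exact bump_pos (hs.2.trans_le h1)
  · exact h0

theorem GG_pos {t : ℝ} (h0 : 0 < t) (h1 : t ≤ 1) : 0 < GG t := by
  apply intervalIntegral.intervalIntegral_pos_of_pos_on
  · exact (contDiff_G.continuous).intervalIntegrable _ _
  · intro s hs
    exact G_pos hs.1 (hs.2.le.trans h1)
  · exact h0

theorem smooth_single (γ : ℝ → ℝ) (hγ : ContDiff ℝ ∞ γ) (i : Fin 3) :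
    SmoothOnHalf (fun t (_ : R3) => (Pi.single 0 (γ t) : R3) i) := by
  unfold SmoothOnHalf
  apply ContDiff.contDiffOn
  by_cases hi : i = 0
  · subst hi
    simp only [Pi.single_eq_same]
    exact hγ.comp contDiff_fst
  · simp only [Pi.single_eq_of_ne hi]
    exact contDiff_const

theorem smooth_forceOf (b : ℝ) (i : Fin 3) : SmoothOnHalf (fun t x => forceOf b t x i) :=
  smooth_single _ (contDiff_const.mul contDiff_bump) i

theorem smooth_velOf (b : ℝ) (i : Fin 3) : SmoothOnHalf (fun t x => velOf b t x i) :=
  smooth_single _ (contDiff_const.mul contDiff_G) i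

theorem hasDerivAt_vel (b : ℝ) (i : Fin 3) (x : R3) (t : ℝ) :
    HasDerivAt (fun s => velOf b s x i) (forceOf b t x i) t := by
  by_cases hi : i = 0
  · subst hi
    simp only [velOf, forceOf, Pi.single_eq_same]
    exact (hasDerivAt_G t).const_mul b
  · simp only [velOf, forceOf, Pi.single_eq_of_ne hi]
    exact hasDerivAt_const _ _

theorem continuous_force (b : ℝ) (i : Fin 3) (x : R3) :
    Continuous (fun t => forceOf b t x i) := by
  by_cases hi : i = 0
  · subst hi
    simp only [forceOf, Pi.single_eq_same]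
    exact continuous_const.mul contDiff_bump.continuous
  · simp only [forceOf, Pi.single_eq_of_ne hi]
    exact continuous_const

theorem continuous_vel (b : ℝ) (i : Fin 3) (x : R3) :
    Continuous (fun t => velOf b t x i) := by
  rw [continuous_iff_continuousAt]
  intro t
  exact (hasDerivAt_vel b i x t).continuousAt

theorem classical_velOf (ν b T : ℝ) (hT : 0 < T) :
    IsClassicalSolution ν (forceOf b) T (velOf b) (fun _ _ => 0) where
  periodic_u := fun _ _ _ _ => rfl
  periodic_p := fun _ _ _ _ => rfl
  time_diff := fun x i t _ => (hasDerivAt_vel b i x t).differentiableAt.differentiableWithinAt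
  space_diff := fun t _ i => by
    unfold velOf
    exact isClass_two.2 contDiff_const
  p_diff := fun t _ => isClass_one.2 contDiff_const
  cont_u := fun i => ((continuous_vel b i 0).comp continuous_fst).continuousOn
  cont_dt := fun i => by
    have h : ∀ z ∈ Icc 0 T ×ˢ (univ : Set R3),
        derivWithin (fun t => velOf b t z.2 i) (Icc 0 T) z.1 = forceOf b z.1 0 i := by
      intro z hz
      exact ((hasDerivAt_vel b i z.2 z.1).hasDerivWithinAt).derivWithin
        (uniqueDiffOn_Icc hT z.1 hz.1)
    refine ContinuousOn.congr ?_ h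
    exact ((continuous_force b i 0).comp continuous_fst).continuousOn
  cont_dx := fun i j => by
    unfold velOf ContOn
    simp only [dX_const]
    exact continuousOn_const
  cont_dxx := fun i j k => by
    unfold velOf ContOn
    have : ∀ (t : ℝ), dX j (fun _ : R3 => (Pi.single 0 (b * G t) : R3) i) = fun _ => 0 := by
      intro t
      funext y
      exact dX_const j _
    simp only [this, dX_const]
    exact continuousOn_const
  cont_p := continuousOn_const
  cont_dp := fun i => by
    unfold ContOn
    simp only [dX_const]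
    exact continuousOn_const
  mean_p := fun t _ => by simp
  momentum := fun t ht x i => by
    have h1 : derivWithin (fun s => velOf b s x i) (Icc 0 T) t = forceOf b t x i :=
      ((hasDerivAt_vel b i x t).hasDerivWithinAt).derivWithin (uniqueDiffOn_Icc hT t ht)
    have h2 : ∀ (j l : Fin 3), dX j (fun y => velOf b t y l) = fun _ => 0 := by
      intro j l
      funext y
      exact dX_const j _
    rw [h1]
    simp only [h2, dX_const]
    simp
  div_free := fun t _ x => by
    have h2 : ∀ (j l : Fin 3), dX j (fun y => velOf b t y l) = fun _ => 0 := by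
      intro j l
      funext y
      exact dX_const j _
    simp only [h2]
    simp
  initial := fun x => by
    simp [velOf, G_zero]

theorem global_velOf (ν b : ℝ) :
    IsGlobalSmoothSolution ν (forceOf b) (velOf b) (fun _ _ => 0) where
  smooth_u := smooth_velOf b
  smooth_p := contDiffOn_const
  classical := fun T hT => classical_velOf ν b T hT

theorem unique_velOf (ν b : ℝ) (hν : 0 < ν) (T : ℝ) (hT : 0 < T) (v : VField) (q : SField)
    (h : IsClassicalSolution ν (forceOf b) T v q) :
    ∀ t ∈ Icc 0 T, ∀ x, v t x = velOf b t x ∧ q t x = 0 := by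
  intro t ht x
  exact classical_unique (c := fun s => velOf b s 0) (g := fun s => forceOf b s 0) hν.le hT
    (by simp [velOf, G_zero])
    (fun s _ i => (hasDerivAt_vel b i 0 s).hasDerivWithinAt)
    (fun i => (continuous_force b i 0).continuousOn) h t ht x

/-- The trajectory. -/
noncomputable def trajOf (b : ℝ) : ℝ → R3 := fun t => Pi.single 0 (b * GG t)

theorem hasDerivAt_traj (b t : ℝ) (x : R3) : HasDerivAt (trajOf b) (velOf b t x) t := by
  rw [hasDerivAt_pi]
  intro i
  by_cases hi : i = 0
  · subst hi
    simp only [trajOf, velOf, Pi.single_eq_same]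
    exact (hasDerivAt_GG t).const_mul b
  · simp only [trajOf, velOf, Pi.single_eq_of_ne hi]
    exact hasDerivAt_const _ _

theorem isTrajectory_trajOf (b : ℝ) : IsTrajectory (velOf b) (toTorus 0) (trajOf b) where
  start := by
    congr 1
    simp [trajOf, GG_zero]
  ode := fun t _ i => ((hasDerivAt_pi.1 (hasDerivAt_traj b t (trajOf b t))) i).hasDerivWithinAt

theorem trajectory_unique (b : ℝ) (Y : ℝ → R3) (hY : IsTrajectory (velOf b) (toTorus 0) Y) :
    ∀ t, 0 ≤ t → toTorus (Y t) = toTorus (trajOf b t) := by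
  intro t ht
  have hd : ∀ s ∈ Ici (0 : ℝ), HasDerivWithinAt (fun s => Y s - trajOf b s) 0 (Ici 0) s := by
    intro s hs
    have h1 : HasDerivWithinAt Y (velOf b s (Y s)) (Ici 0) s :=
      hasDerivWithinAt_pi.2 (hY.ode s hs)
    have h2 := (hasDerivAt_traj b s (Y s)).hasDerivWithinAt (s := Ici 0)
    have h3 := h1.fun_sub h2
    rwa [sub_self] at h3
  have hconst : Y t - trajOf b t = Y 0 - trajOf b 0 := by
    have hdiff : DifferentiableOn ℝ (fun s => Y s - trajOf b s) (Ici 0) := fun s hs =>
      (hd s hs).differentiableWithinAt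
    refine (convex_Ici (0 : ℝ)).is_const_of_fderivWithin_eq_zero (𝕜 := ℝ) hdiff ?_ ht
      (mem_Ici.2 le_rfl)
    intro s hs
    have hu : UniqueDiffWithinAt ℝ (Ici (0 : ℝ)) s := uniqueDiffOn_Ici 0 s hs
    have := (hd s hs).hasFDerivWithinAt.fderivWithin hu
    rw [this]
    ext
    simp
  have h0 : trajOf b 0 = 0 := by simp [trajOf, GG_zero]
  have hs := hY.start
  funext i
  have hi : Y t i = trajOf b t i + Y 0 i := by
    have := congrFun hconst i
    rw [h0] at this
    simp only [Pi.sub_apply, Pi.zero_apply, sub_zero] at this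
    linarith
  have hsi := congrFun hs i
  simp only [toTorus, Pi.zero_apply] at hsi ⊢
  rw [hi, AddCircle.coe_add, hsi]
  simp

/-- The open set. -/
def target : Set T3 := {y | y 0 ∈ (fun r : ℝ => (r : AddCircle (1 : ℝ))) '' Ioo 0 (1 / 2)}

theorem isOpen_target : IsOpen target := by
  have h1 : IsOpen ((fun r : ℝ => (r : AddCircle (1 : ℝ))) '' Ioo 0 (1 / 2)) :=
    QuotientAddGroup.isOpenMap_coe _ isOpen_Ioo
  exact h1.preimage (continuous_apply 0)

theorem zero_notMem_target : toTorus 0 ∉ target := by
  rintro ⟨r, hr, hr0⟩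
  simp only [toTorus, Pi.zero_apply, AddCircle.coe_zero] at hr0
  rw [AddCircle.coe_eq_zero_iff] at hr0
  obtain ⟨n, hn⟩ := hr0
  simp only [zsmul_eq_mul, mul_one] at hn
  rw [← hn] at hr
  have h1 : (0 : ℝ) < n := hr.1
  have h2 : (n : ℝ) < 1 / 2 := hr.2
  have h3 : (0 : ℤ) < n := by exact_mod_cast h1
  have h4 : (1 : ℝ) ≤ n := by exact_mod_cast h3
  linarith

theorem traj_hits_iff (b : ℝ) (hb : 0 ≤ b) :
    (∃ t, 0 ≤ t ∧ toTorus (trajOf b t) ∈ target) ↔ 0 < b := by
  constructor
  · rintro ⟨t, ht, hmem⟩
    rcases hb.lt_or_eq with h | h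
    · exact h
    · exfalso
      rw [← h] at hmem
      have : trajOf 0 t = 0 := by simp [trajOf]
      rw [this] at hmem
      exact zero_notMem_target hmem
  · intro hb0
    have hcont : ContinuousAt (fun t => b * GG t) 0 :=
      (((hasDerivAt_GG 0).const_mul b)).continuousAt
    have h0 : b * GG 0 < 1 / 2 := by
      rw [GG_zero]
      norm_num
    have hev := hcont.eventually (gt_mem_nhds h0)
    rw [Metric.eventually_nhds_iff] at hev
    obtain ⟨δ, hδ, hball⟩ := hev
    have hpos : 0 < min (δ / 2) 1 := by positivity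
    refine ⟨min (δ / 2) 1, hpos.le, b * GG (min (δ / 2) 1), ⟨?_, ?_⟩, ?_⟩
    · exact mul_pos hb0 (GG_pos hpos (min_le_right _ _))
    · apply hball
      rw [Real.dist_eq, sub_zero, abs_of_pos hpos]
      exact (min_le_left _ _).trans_lt (by linarith)
    · simp [toTorus, trajOf]

end Vale.Agent.P113
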