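import Vale.Agent.P113.Sim
import Vale.Agent.P113.Flow

open Set

namespace Vale.Agent.P113

/-- Queries: direction list, component, time, point, accuracy. -/
abbrev Query : Type :=
  List (Option (Fin 3)) × Fin 3 × Name × (Name × Name × Name) × Name

/-! ### Rows of the coefficient triangle -/

/-- One step of the recursion for the rows. -/
def lahStep (k : ℕ) (row : List ℕ) : List ℕ :=
  (List.range (k + 2)).map (fun j =>
    (if j = 0 then 0 else row.getD (j - 1) 0) + (k + j) * row.getD j 0)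

/-- The rows of the coefficient triangle. -/
def lahRow (k : ℕ) : List ℕ := Nat.rec [1] lahStep k

theorem lahRow_succ (k : ℕ) : lahRow (k + 1) = lahStep k (lahRow k) := rfl

theorem getD_map_range (n : ℕ) (f : ℕ → ℕ) (j : ℕ) :
    ((List.range n).map f).getD j 0 = if j < n then f j else 0 := by
  split_ifs with h
  · rw [List.getD_eq_getElem _ _ (by simpa using h)]
    simp
  · rw [List.getD_eq_default _ _ (by simpa using h)]

theorem lahRow_getD (k : ℕ) : ∀ j, (lahRow k).getD j 0 = lah k j := by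
  induction k with
  | zero =>
    intro j
    rcases j with _ | j
    · rfl
    · rfl
  | succ k ih =>
    intro j
    rw [lahRow_succ]
    unfold lahStep
    rw [getD_map_range]
    simp only [ih]
    split_ifs with h1 h2
    · subst h2
      simp [lah]
    · obtain ⟨i, rfl⟩ : ∃ i, j = i + 1 := ⟨j - 1, by omega⟩
      simp [lah]
    · rw [lah_eq_zero (k + 1) j (by omega)]

theorem primrec_lahStep : Primrec₂ lahStep := by
  unfold lahStep
  have hj : Primrec (fun p : (ℕ × List ℕ) × ℕ => p.2) := Primrec.snd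
  have hk : Primrec (fun p : (ℕ × List ℕ) × ℕ => p.1.1) := Primrec.fst.comp Primrec.fst
  have hrow : Primrec (fun p : (ℕ × List ℕ) × ℕ => p.1.2) := Primrec.snd.comp Primrec.fst
  have h1 : Primrec (fun p : (ℕ × List ℕ) × ℕ => p.1.2.getD p.2 0) :=
    (Primrec.list_getD 0).comp hrow hj
  have h2 : Primrec (fun p : (ℕ × List ℕ) × ℕ => p.1.2.getD (p.2 - 1) 0) :=
    (Primrec.list_getD 0).comp hrow (Primrec.nat_sub.comp hj (Primrec.const 1))
  have h3 : Primrec (fun p : (ℕ × List ℕ) × ℕ =>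
      (if p.2 = 0 then 0 else p.1.2.getD (p.2 - 1) 0) + (p.1.1 + p.2) * p.1.2.getD p.2 0) :=
    Primrec.nat_add.comp
      (Primrec.ite (Primrec.eq.comp hj (Primrec.const 0)) (Primrec.const 0) h2)
      (Primrec.nat_mul.comp (Primrec.nat_add.comp hk hj) h1)
  have h4 : Primrec (fun p : ℕ × List ℕ => List.range (p.1 + 2)) :=
    Primrec.list_range.comp (Primrec.nat_add.comp Primrec.fst (Primrec.const 2))
  exact Primrec.list_map h4 h3.to₂

theorem primrec_lahRow : Primrec lahRow := by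
  unfold lahRow
  exact Primrec.nat_rec₁ [1] primrec_lahStep

/-! ### Powers and sums -/

theorem primrec_pow : Primrec₂ ((· ^ ·) : ℕ → ℕ → ℕ) :=
  Primrec₂.unpaired'.1 Nat.Primrec.pow

theorem primrec_sum : Primrec (List.sum : List ℕ → ℕ) := by
  have h := Primrec.list_foldr (f := fun l : List ℕ => l) (g := fun _ => (0 : ℕ))
    (h := fun _ p => p.1 + p.2) Primrec.id (Primrec.const 0)
    (Primrec.nat_add.comp (Primrec.fst.comp Primrec.snd) (Primrec.snd.comp Primrec.snd))
  exact h.of_eq (fun l => by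
    induction l with
    | nil => rfl
    | cons a l ih => simp only [List.foldr_cons, List.sum_cons, ih])

/-- Part of the numerator: sum over the `j` with `j % 2 = par`. -/
def coefSum (par : ℕ) (z : ℕ × ℕ × ℕ) : ℕ :=
  ((List.range (z.1 + 1)).map (fun j =>
    if j % 2 = par then (lahRow z.1).getD j 0 * z.2.1 ^ (z.1 + j) * z.2.2 ^ (z.1 - j)
    else 0)).sum

theorem primrec_coefSum (par : ℕ) : Primrec (coefSum par) := by
  unfold coefSum
  have hj : Primrec (fun p : (ℕ × ℕ × ℕ) × ℕ => p.2) := Primrec.snd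
  have hk : Primrec (fun p : (ℕ × ℕ × ℕ) × ℕ => p.1.1) := Primrec.fst.comp Primrec.fst
  have hu : Primrec (fun p : (ℕ × ℕ × ℕ) × ℕ => p.1.2.1) :=
    Primrec.fst.comp (Primrec.snd.comp Primrec.fst)
  have hS : Primrec (fun p : (ℕ × ℕ × ℕ) × ℕ => p.1.2.2) :=
    Primrec.snd.comp (Primrec.snd.comp Primrec.fst)
  have h1 : Primrec (fun p : (ℕ × ℕ × ℕ) × ℕ => (lahRow p.1.1).getD p.2 0) :=
    (Primrec.list_getD 0).comp (primrec_lahRow.comp hk) hj
  have h2 : Primrec (fun p : (ℕ × ℕ × ℕ) × ℕ => p.1.2.1 ^ (p.1.1 + p.2)) :=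
    primrec_pow.comp hu (Primrec.nat_add.comp hk hj)
  have h3 : Primrec (fun p : (ℕ × ℕ × ℕ) × ℕ => p.1.2.2 ^ (p.1.1 - p.2)) :=
    primrec_pow.comp hS (Primrec.nat_sub.comp hk hj)
  have h4 : Primrec (fun p : (ℕ × ℕ × ℕ) × ℕ => if p.2 % 2 = par then
      (lahRow p.1.1).getD p.2 0 * p.1.2.1 ^ (p.1.1 + p.2) * p.1.2.2 ^ (p.1.1 - p.2) else 0) :=
    Primrec.ite (Primrec.eq.comp (Primrec.nat_mod.comp hj (Primrec.const 2)) (Primrec.const par))
      (Primrec.nat_mul.comp (Primrec.nat_mul.comp h1 h2) h3) (Primrec.const 0)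
  exact primrec_sum.comp (Primrec.list_map
    (Primrec.list_range.comp (Primrec.succ.comp Primrec.fst)) h4.to₂)

theorem sum_map_range (n : ℕ) (f : ℕ → ℕ) :
    ((List.range n).map f).sum = ∑ j ∈ Finset.range n, f j := by
  induction n with
  | zero => simp
  | succ n ih => rw [List.range_succ, Finset.sum_range_succ, ← ih]; simp

/-- The sum as a finset sum. -/
theorem coefSum_eq (par k u S : ℕ) :
    coefSum par (k, u, S) = ∑ j ∈ Finset.range (k + 1),
      if j % 2 = par then lah k j * u ^ (k + j) * S ^ (k - j) else 0 := by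
  unfold coefSum
  simp only [lahRow_getD]
  rw [sum_map_range]

/-- Evaluation of the derivative polynomial. -/
theorem lahPoly_eval (k u S : ℕ) (hS : 0 < S) :
    (lahPoly k).eval ((u : ℝ) / S)
      = ((coefSum 0 (k, u, S) : ℝ) - (coefSum 1 (k, u, S) : ℝ)) / (S : ℝ) ^ (2 * k) := by
  have hS' : (S : ℝ) ≠ 0 := by positivity
  rw [eq_div_iff (by positivity), coefSum_eq, coefSum_eq]
  push_cast
  rw [← Finset.sum_sub_distrib]
  unfold lahPoly
  rw [Polynomial.eval_finsetSum, Finset.sum_mul]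
  apply Finset.sum_congr rfl
  intro j hj
  rw [Finset.mem_range] at hj
  simp only [Polynomial.eval_mul, Polynomial.eval_C, Polynomial.eval_pow, Polynomial.eval_X]
  have hpow : ((u : ℝ) / S) ^ (k + j) * (S : ℝ) ^ (2 * k) = (u : ℝ) ^ (k + j) * (S : ℝ) ^ (k - j) := by
    have h2 : 2 * k = (k + j) + (k - j) := by omega
    rw [h2, pow_add (S : ℝ) (k + j) (k - j), div_pow]
    field_simp
  rw [mul_assoc, hpow]
  rcases Nat.mod_two_eq_zero_or_one j with h | h
  · have he : Even j := Nat.even_iff.2 h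
    rw [he.neg_one_pow, h]
    simp
    ring
  · have ho : Odd j := Nat.odd_iff.2 h
    rw [ho.neg_one_pow, h]
    simp
    ring

theorem pow_sub_pow_le' (a b : ℝ) (ha : 0 ≤ a) (hab : a ≤ b) (hb : b ≤ 1) (n : ℕ) :
    b ^ n - a ^ n ≤ n * (b - a) := by
  induction n with
  | zero => simp
  | succ n ih =>
    have h1 : b ^ (n + 1) - a ^ (n + 1) = b * (b ^ n - a ^ n) + a ^ n * (b - a) := by ring
    have h2 : 0 ≤ b ^ n - a ^ n := sub_nonneg.2 (pow_le_pow_left₀ ha hab n)
    have h3 : a ^ n ≤ 1 := pow_le_one₀ ha (hab.trans hb)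
    have h4 : 0 ≤ b - a := sub_nonneg.2 hab
    rw [h1]
    push_cast
    nlinarith

/-- Approximating the exponential. -/
theorem exp_approx (y : ℝ) (N : ℕ) (hy : 0 ≤ y) (hN : 0 < N) (hyN : y ≤ N) :
    |(1 - y / N) ^ N - Real.exp (-y)| ≤ y ^ 2 / N := by
  have hN' : (0 : ℝ) < N := by exact_mod_cast hN
  have hz0 : 0 ≤ y / N := by positivity
  have hz1 : y / N ≤ 1 := (div_le_one hN').2 hyN
  have hexp : Real.exp (-y) = (Real.exp (-(y / N))) ^ N := by
    rw [← Real.exp_nat_mul]
    congr 1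
    field_simp
  have hle : 1 - y / N ≤ Real.exp (-(y / N)) := by
    have := Real.add_one_le_exp (-(y / N))
    linarith
  have hb : Real.exp (-(y / N)) ≤ 1 := Real.exp_le_one_iff.2 (by linarith)
  have h1 := pow_sub_pow_le' (1 - y / N) (Real.exp (-(y / N))) (by linarith) hle hb N
  have h2 : Real.exp (-(y / N)) - (1 - y / N) ≤ (y / N) ^ 2 := by
    have h3 := Real.abs_exp_sub_one_sub_id_le (x := -(y / N)) (by rw [abs_neg, abs_of_nonneg hz0]; exact hz1)
    have h4 := (abs_le.1 h3).2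
    have h5 : (-(y / N)) ^ 2 = (y / N) ^ 2 := by ring
    rw [h5] at h4
    linarith
  have h6 : (1 - y / N) ^ N ≤ (Real.exp (-(y / N))) ^ N :=
    pow_le_pow_left₀ (by linarith) hle N
  rw [hexp, abs_sub_comm, abs_of_nonneg (sub_nonneg.2 h6)]
  calc (Real.exp (-(y / N))) ^ N - (1 - y / N) ^ N
      ≤ N * (Real.exp (-(y / N)) - (1 - y / N)) := h1
    _ ≤ N * (y / N) ^ 2 := mul_le_mul_of_nonneg_left h2 hN'.le
    _ = y ^ 2 / N := by field_simp

/-! ### The answer to a query -/

/-- Denominator of the time. -/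
def qU (z : Description × Query) : ℕ := z.2.2.2.1.2.2 + 1

/-- Numerator of `1 - t` (over the denominator `qU`). -/
def qS (z : Description × Query) : ℕ := (qU z + z.2.2.2.1.2.1) - z.2.2.2.1.1

/-- Order of the derivative. -/
def qK (z : Description × Query) : ℕ := z.2.1.length

/-- Positive part. -/
def qP (z : Description × Query) : ℕ := coefSum 0 (qK z, qU z, qS z)

/-- Negative part. -/
def qQ (z : Description × Query) : ℕ := coefSum 1 (qK z, qU z, qS z)

/-- Number of steps to simulate, and precision. -/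
def qN (z : Description × Query) : ℕ :=
  2 * (qP z + qQ z + 1) * (qU z * qU z) * (z.2.2.2.2.2.2.2 + 1)

/-- Halting index. -/
def qH (z : Description × Query) : ℕ := haltIdx z.1 (qN z)

/-- Exponential factor. -/
def qE (z : Description × Query) : ℕ := (qS z * qN z - qU z) ^ qN z

/-- Denominator. -/
def qD (z : Description × Query) : ℕ :=
  qS z ^ (2 * qK z) * (qS z * qN z) ^ qN z * 2 ^ qH z

/-- The answer to a query. -/
def answer (z : Description × Query) : Name :=
  if (∀ a ∈ z.2.1, a = none) ∧ z.2.2.1 = 0 ∧ 0 < qS z ∧ qH z ≤ qN z then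
    (qP z * qE z, qQ z * qE z, qD z - 1)
  else (0, 0, 0)

theorem primrec_qU : Primrec qU := by
  unfold qU
  exact Primrec.succ.comp (Primrec.snd.comp (Primrec.snd.comp (Primrec.fst.comp
    (Primrec.snd.comp (Primrec.snd.comp Primrec.snd)))))

theorem primrec_qS : Primrec qS := by
  unfold qS
  exact Primrec.nat_sub.comp (Primrec.nat_add.comp primrec_qU
    (Primrec.fst.comp (Primrec.snd.comp (Primrec.fst.comp
      (Primrec.snd.comp (Primrec.snd.comp Primrec.snd))))))
    (Primrec.fst.comp (Primrec.fst.comp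
      (Primrec.snd.comp (Primrec.snd.comp Primrec.snd))))

theorem primrec_qK : Primrec qK := by
  unfold qK
  exact Primrec.list_length.comp (Primrec.fst.comp Primrec.snd)

theorem primrec_qP : Primrec qP := by
  unfold qP
  exact (primrec_coefSum 0).comp (Primrec.pair primrec_qK (Primrec.pair primrec_qU primrec_qS))

theorem primrec_qQ : Primrec qQ := by
  unfold qQ
  exact (primrec_coefSum 1).comp (Primrec.pair primrec_qK (Primrec.pair primrec_qU primrec_qS))

theorem primrec_qN : Primrec qN := by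
  unfold qN
  exact Primrec.nat_mul.comp (Primrec.nat_mul.comp (Primrec.nat_mul.comp (Primrec.const 2)
    (Primrec.succ.comp (Primrec.nat_add.comp primrec_qP primrec_qQ)))
    (Primrec.nat_mul.comp primrec_qU primrec_qU))
    (Primrec.succ.comp (Primrec.snd.comp (Primrec.snd.comp (Primrec.snd.comp
      (Primrec.snd.comp (Primrec.snd.comp (Primrec.snd.comp Primrec.snd)))))))

theorem primrec_qH : Primrec qH := by
  unfold qH
  exact primrec_haltIdx.comp Primrec.fst primrec_qN

theorem primrec_qE : Primrec qE := by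
  unfold qE
  exact primrec_pow.comp (Primrec.nat_sub.comp (Primrec.nat_mul.comp primrec_qS primrec_qN)
    primrec_qU) primrec_qN

theorem primrec_qD : Primrec qD := by
  unfold qD
  exact Primrec.nat_mul.comp (Primrec.nat_mul.comp
    (primrec_pow.comp primrec_qS (Primrec.nat_mul.comp (Primrec.const 2) primrec_qK))
    (primrec_pow.comp (Primrec.nat_mul.comp primrec_qS primrec_qN) primrec_qN))
    (primrec_pow.comp (Primrec.const 2) primrec_qH)

theorem primrec_answer : Primrec answer := by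
  unfold answer
  have h1 : PrimrecPred (fun z : Description × Query => ∀ a ∈ z.2.1, a = none) := by
    have h := PrimrecPred.forall_mem_list (p := fun a : Option (Fin 3) => a = none)
      (Primrec.eq.comp Primrec.id (Primrec.const none))
    exact h.comp (Primrec.fst.comp Primrec.snd)
  have h2 : PrimrecPred (fun z : Description × Query => z.2.2.1 = 0) :=
    Primrec.eq.comp (Primrec.fst.comp (Primrec.snd.comp Primrec.snd)) (Primrec.const 0)
  have h3 : PrimrecPred (fun z : Description × Query => 0 < qS z) :=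
    Primrec.nat_lt.comp (Primrec.const 0) primrec_qS
  have h4 : PrimrecPred (fun z : Description × Query => qH z ≤ qN z) :=
    Primrec.nat_le.comp primrec_qH primrec_qN
  exact Primrec.ite (h1.and (h2.and (h3.and h4)))
    (Primrec.pair (Primrec.nat_mul.comp primrec_qP primrec_qE)
      (Primrec.pair (Primrec.nat_mul.comp primrec_qQ primrec_qE)
        (Primrec.pred.comp primrec_qD))) (Primrec.const (0, 0, 0))

/-! ### Correctness of the answers -/

/-- The quantitative estimate. -/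
theorem answer_estimate (A y b : ℝ) (PQ U e N H : ℕ) (hA : |A| ≤ PQ) (hy0 : 0 ≤ y) (hyU : y ≤ U)
    (hU : 0 < U) (hN : N = 2 * (PQ + 1) * (U * U) * (e + 1))
    (hb0 : 0 ≤ b) (hb1 : H ≤ N → b = (1 / 2 : ℝ) ^ H) (hb2 : N < H → b ≤ (1 / 2 : ℝ) ^ N) :
    |(if H ≤ N then A * (1 - y / N) ^ N * (1 / 2 : ℝ) ^ H else 0) - b * (A * Real.exp (-y))|
      ≤ 1 / ((e : ℝ) + 1) := by
  have hNpos : 0 < N := by rw [hN]; positivity
  have hNr : (0 : ℝ) < N := by exact_mod_cast hNpos
  have hUN : (U : ℝ) ≤ N := by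
    have : U ≤ N := by
      rw [hN]
      calc U = 1 * (1 * U) * 1 := by ring
        _ ≤ 2 * (PQ + 1) * (U * U) * (e + 1) := by gcongr <;> omega
    exact_mod_cast this
  have hPQ0 : (0 : ℝ) ≤ PQ := by positivity
  have he0 : (0 : ℝ) < (e : ℝ) + 1 := by positivity
  have hU1 : (1 : ℝ) ≤ U := by exact_mod_cast hU
  have hNval : (N : ℝ) = 2 * ((PQ : ℝ) + 1) * ((U : ℝ) * U) * ((e : ℝ) + 1) := by
    rw [hN]; push_cast; ring
  -- key bounds
  have hkey1 : (PQ : ℝ) * (y ^ 2 / N) ≤ 1 / ((e : ℝ) + 1) := by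
    have h1 : y ^ 2 ≤ U * U := by nlinarith
    rw [mul_div_assoc', div_le_div_iff₀ hNr he0, hNval]
    have h2 : (PQ : ℝ) * y ^ 2 ≤ PQ * (U * U) := mul_le_mul_of_nonneg_left h1 hPQ0
    have h3 : (PQ : ℝ) * (U * U) ≤ 2 * ((PQ : ℝ) + 1) * ((U : ℝ) * U) := by
      have : (0 : ℝ) ≤ (U : ℝ) * U := by positivity
      nlinarith
    calc (PQ : ℝ) * y ^ 2 * ((e : ℝ) + 1) ≤ (2 * ((PQ : ℝ) + 1) * ((U : ℝ) * U)) * ((e : ℝ) + 1) :=
          mul_le_mul_of_nonneg_right (h2.trans h3) he0.le
      _ = 1 * (2 * ((PQ : ℝ) + 1) * ((U : ℝ) * U) * ((e : ℝ) + 1)) := by ring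
  have hkey2 : (1 / 2 : ℝ) ^ N * PQ ≤ 1 / ((e : ℝ) + 1) := by
    have h1 : (1 / 2 : ℝ) ^ N ≤ 1 / N := by
      rw [one_div, inv_pow, ← one_div]
      apply one_div_le_one_div_of_le hNr
      exact_mod_cast (Nat.lt_two_pow_self (n := N)).le
    have h2 : (1 / 2 : ℝ) ^ N * PQ ≤ 1 / N * PQ := mul_le_mul_of_nonneg_right h1 hPQ0
    refine h2.trans ?_
    rw [one_div_mul_eq_div, div_le_div_iff₀ hNr he0, hNval]
    have h3 : (PQ : ℝ) ≤ 2 * ((PQ : ℝ) + 1) * ((U : ℝ) * U) := by
      have h4 : (1 : ℝ) ≤ (U : ℝ) * U := by nlinarith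
      nlinarith
    calc (PQ : ℝ) * ((e : ℝ) + 1) ≤ (2 * ((PQ : ℝ) + 1) * ((U : ℝ) * U)) * ((e : ℝ) + 1) :=
          mul_le_mul_of_nonneg_right h3 he0.le
      _ = 1 * (2 * ((PQ : ℝ) + 1) * ((U : ℝ) * U) * ((e : ℝ) + 1)) := by ring
  split_ifs with hH
  · rw [hb1 hH]
    have h1 : A * (1 - y / N) ^ N * (1 / 2 : ℝ) ^ H - (1 / 2 : ℝ) ^ H * (A * Real.exp (-y))
        = (1 / 2 : ℝ) ^ H * (A * ((1 - y / N) ^ N - Real.exp (-y))) := by ring
    rw [h1, abs_mul, abs_mul, abs_of_nonneg (by positivity : (0 : ℝ) ≤ (1 / 2 : ℝ) ^ H)]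
    have h2 := exp_approx y N hy0 hNpos (hyU.trans hUN)
    have h3 : (1 / 2 : ℝ) ^ H ≤ 1 := pow_le_one₀ (by norm_num) (by norm_num)
    calc (1 / 2 : ℝ) ^ H * (|A| * |(1 - y / N) ^ N - Real.exp (-y)|)
        ≤ 1 * (PQ * (y ^ 2 / N)) := by
          apply mul_le_mul h3 _ (by positivity) (by norm_num)
          exact mul_le_mul hA h2 (abs_nonneg _) hPQ0
      _ = PQ * (y ^ 2 / N) := one_mul _
      _ ≤ 1 / ((e : ℝ) + 1) := hkey1
  · push Not at hH
    rw [zero_sub, abs_neg, abs_mul, abs_mul, abs_of_nonneg hb0, abs_of_pos (Real.exp_pos _)]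
    have h2 : Real.exp (-y) ≤ 1 := Real.exp_le_one_iff.2 (by linarith)
    calc b * (|A| * Real.exp (-y)) ≤ (1 / 2 : ℝ) ^ N * (PQ * 1) := by
          apply mul_le_mul (hb2 hH) _ (by positivity) (by positivity)
          exact mul_le_mul hA h2 (Real.exp_pos _).le hPQ0
      _ = (1 / 2 : ℝ) ^ N * PQ := by ring
      _ ≤ 1 / ((e : ℝ) + 1) := hkey2

theorem name_pos_bound (ε : Name) (h : 0 < ε.val) : 1 / ((ε.2.2 : ℝ) + 1) ≤ ((ε.val : ℚ) : ℝ) := by
  unfold Name.val at h ⊢
  have h1 : (0 : ℚ) < (ε.2.2 : ℚ) + 1 := by positivity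
  have h2 : (0 : ℚ) < (ε.1 : ℚ) - ε.2.1 := by
    by_contra hcon
    push Not at hcon
    have := div_nonpos_of_nonpos_of_nonneg hcon h1.le
    linarith
  have h3 : ε.2.1 < ε.1 := by
    have : (ε.2.1 : ℚ) < ε.1 := by linarith
    exact_mod_cast this
  have h4 : (1 : ℝ) ≤ (ε.1 : ℝ) - ε.2.1 := by
    have : (ε.2.1 : ℝ) + 1 ≤ ε.1 := by exact_mod_cast h3
    linarith
  push_cast
  apply div_le_div_of_nonneg_right h4
  positivity

theorem forceOf_zero_comp (b : ℝ) : (fun (s : ℝ) (y : R3) => forceOf b s y 0)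
    = fun s _ => b * bumpD 0 s := by
  funext s y
  simp [forceOf]

theorem forceOf_ne_comp (b : ℝ) (i : Fin 3) (hi : i ≠ 0) :
    (fun (s : ℝ) (y : R3) => forceOf b s y i) = fun _ _ => (0 : ℝ) := by
  funext s y
  simp [forceOf, hi]

theorem zero_name_val : Name.val (0, 0, 0) = 0 := by
  simp [Name.val]

theorem bumpD_eq_zero (k : ℕ) {t : ℝ} (ht : 1 ≤ t) : bumpD k t = 0 := by
  unfold bumpD
  rw [expNegInvGlue.zero_of_nonpos (by linarith), mul_zero]

theorem coefSum_diff_le (k u S : ℕ) (hS : 0 < S) :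
    |((coefSum 0 (k, u, S) : ℝ) - (coefSum 1 (k, u, S) : ℝ)) / (S : ℝ) ^ (2 * k)|
      ≤ ((coefSum 0 (k, u, S) + coefSum 1 (k, u, S) : ℕ) : ℝ) := by
  have hS1 : (1 : ℝ) ≤ (S : ℝ) ^ (2 * k) := one_le_pow₀ (by exact_mod_cast hS)
  rw [abs_div, abs_of_pos (by positivity : (0 : ℝ) < (S : ℝ) ^ (2 * k))]
  rw [div_le_iff₀ (by positivity)]
  push_cast
  have h0 : (0 : ℝ) ≤ (coefSum 0 (k, u, S) : ℝ) := by positivity
  have h1 : (0 : ℝ) ≤ (coefSum 1 (k, u, S) : ℝ) := by positivity
  have h2 : |(coefSum 0 (k, u, S) : ℝ) - (coefSum 1 (k, u, S) : ℝ)|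
      ≤ (coefSum 0 (k, u, S) : ℝ) + (coefSum 1 (k, u, S) : ℝ) := by
    rw [abs_le]
    constructor <;> linarith
  nlinarith

theorem answer_correct (M : Machine) (w : Word M) (l : List (Option (Fin 3))) (i : Fin 3)
    (t : Name) (x : Name × Name × Name) (ε : Name) (ht : 0 ≤ t.val) (hε : 0 < ε.val) :
    |(((answer (describe M w, l, i, t, x, ε)).val : ℚ) : ℝ)
      - mixedD l (fun s y => forceOf (amp M w) s y i) ((t.val : ℚ) : ℝ)
        (pointVal x)| ≤ ((ε.val : ℚ) : ℝ) := by
  have ht' : (0 : ℝ) ≤ ((t.val : ℚ) : ℝ) := by exact_mod_cast ht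
  have hε' : (0 : ℝ) < ((ε.val : ℚ) : ℝ) := by exact_mod_cast hε
  set z : Description × Query := (describe M w, l, i, t, x, ε) with hz
  by_cases hi : i = 0
  swap
  · have h1 : answer z = (0, 0, 0) := by
      unfold answer
      rw [if_neg]
      rintro ⟨-, h2, -⟩
      exact hi h2
    rw [h1, zero_name_val, forceOf_ne_comp _ i hi, mixedD_zero l _ ht']
    simpa using hε'.le
  subst hi
  rw [forceOf_zero_comp, mixedD_bump l _ _ ht']
  by_cases hl : ∀ a ∈ l, a = none
  swap
  · have h1 : answer z = (0, 0, 0) := by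
      unfold answer
      rw [if_neg]
      rintro ⟨h2, -⟩
      exact hl h2
    have h2 : ¬ (l.all (fun d => d.isNone) = true) := by
      intro h3
      apply hl
      intro a ha
      have := List.all_eq_true.1 h3 a ha
      simpa using this
    rw [h1, zero_name_val, if_neg h2]
    simpa using hε'.le
  have hl2 : l.all (fun d => d.isNone) = true := by
    rw [List.all_eq_true]
    intro a ha
    simp [hl a ha]
  rw [if_pos hl2]
  -- the time
  have hu : (0 : ℝ) < (qU z : ℝ) := by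
    unfold qU
    positivity
  have htval : ((t.val : ℚ) : ℝ) = ((t.1 : ℝ) - t.2.1) / (qU z : ℝ) := by
    unfold Name.val qU
    push_cast
    rfl
  by_cases hS : 0 < qS z
  swap
  · have h1 : answer z = (0, 0, 0) := by
      unfold answer
      rw [if_neg]
      rintro ⟨-, -, h2, -⟩
      exact hS h2
    have h2 : qU z + t.2.1 ≤ t.1 := by
      unfold qS at hS
      change ¬ (0 < qU z + t.2.1 - t.1) at hS
      omega
    have h3 : (1 : ℝ) ≤ ((t.val : ℚ) : ℝ) := by
      rw [htval, le_div_iff₀ hu]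
      have : (qU z : ℝ) + t.2.1 ≤ t.1 := by exact_mod_cast h2
      linarith
    rw [h1, zero_name_val, bumpD_eq_zero _ h3]
    simpa using hε'.le
  have hSr : (0 : ℝ) < (qS z : ℝ) := by exact_mod_cast hS
  have hSval : (qS z : ℝ) = (qU z : ℝ) + t.2.1 - t.1 := by
    have h2 : t.1 ≤ qU z + t.2.1 := by
      unfold qS at hS
      change 0 < qU z + t.2.1 - t.1 at hS
      omega
    have h3 : qS z = qU z + t.2.1 - t.1 := rfl
    rw [h3, Nat.cast_sub h2]
    push_cast
    ring
  have h1t : 1 - ((t.val : ℚ) : ℝ) = (qS z : ℝ) / qU z := by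
    rw [htval, hSval]
    field_simp
    ring
  have hbump : bumpD l.length ((t.val : ℚ) : ℝ)
      = ((qP z : ℝ) - (qQ z : ℝ)) / (qS z : ℝ) ^ (2 * qK z)
        * Real.exp (-((qU z : ℝ) / qS z)) := by
    unfold bumpD
    rw [h1t, inv_div, lahPoly_eval _ _ _ hS]
    have h4 : expNegInvGlue ((qS z : ℝ) / qU z) = Real.exp (-((qU z : ℝ) / qS z)) := by
      unfold expNegInvGlue
      rw [if_neg (by push Not; positivity), inv_div]
    rw [h4]
    rfl
  rw [hbump]
  set A : ℝ := ((qP z : ℝ) - (qQ z : ℝ)) / (qS z : ℝ) ^ (2 * qK z) with hA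
  set y : ℝ := (qU z : ℝ) / qS z with hy
  have hS1 : (1 : ℝ) ≤ (qS z : ℝ) := by exact_mod_cast hS
  have hyU : y ≤ qU z := by
    rw [hy]
    exact div_le_self hu.le hS1
  have hest := answer_estimate A y (amp M w) (qP z + qQ z) (qU z) ε.2.2 (qN z) (qH z)
    (coefSum_diff_le _ _ _ hS) (by positivity) hyU (by unfold qU; omega) rfl
    (amp_nonneg M w) (fun h => amp_of_le M w (qN z) h) (fun h => amp_of_gt M w (qN z) h)
  have hval : (((answer z).val : ℚ) : ℝ)
      = if qH z ≤ qN z then A * (1 - y / qN z) ^ qN z * (1 / 2 : ℝ) ^ qH z else 0 := by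
    unfold answer
    by_cases hH : qH z ≤ qN z
    · rw [if_pos ⟨hl, rfl, hS, hH⟩, if_pos hH]
      have hNpos : 0 < qN z := by unfold qN qU; positivity
      have hUN : qU z ≤ qS z * qN z := by
        have h5 : qU z ≤ qN z := by
          unfold qN
          calc qU z = 1 * (1 * qU z) * 1 := by ring
            _ ≤ 2 * (qP z + qQ z + 1) * (qU z * qU z) * (z.2.2.2.2.2.2.2 + 1) := by
              have : 1 ≤ qU z := by unfold qU; omega
              gcongr <;> omega
        calc qU z ≤ qN z := h5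
          _ = 1 * qN z := (one_mul _).symm
          _ ≤ qS z * qN z := Nat.mul_le_mul_right _ hS
      have hDpos : 0 < qD z := by unfold qD; positivity
      have hD1 : ((qD z - 1 : ℕ) : ℝ) + 1 = (qD z : ℝ) := by
        rw [Nat.cast_sub hDpos]
        push_cast
        ring
      unfold Name.val
      push_cast
      rw [hD1]
      have hE : (qE z : ℝ) = ((qS z : ℝ) * qN z - qU z) ^ qN z := by
        unfold qE
        rw [Nat.cast_pow, Nat.cast_sub hUN]
        push_cast
        rfl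
      have hDv : (qD z : ℝ) = (qS z : ℝ) ^ (2 * qK z) * ((qS z : ℝ) * qN z) ^ qN z
          * 2 ^ qH z := by
        unfold qD
        push_cast
        rfl
      have hNr : (0 : ℝ) < (qN z : ℝ) := by exact_mod_cast hNpos
      have h6 : (1 - y / qN z) = ((qS z : ℝ) * qN z - qU z) / ((qS z : ℝ) * qN z) := by
        rw [hy]
        field_simp
      rw [hE, hDv, h6, div_pow, one_div, inv_pow, hA]
      field_simp
    · rw [if_neg (fun h => hH h.2.2.2), if_neg hH, zero_name_val]
      simp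
  rw [hval]
  exact hest.trans (name_pos_bound ε hε)

end Vale.Agent.P113
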