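import Mathlib

/-!
# P113: definitions

Forced incompressible Navier-Stokes on the flat torus, Turing machines, effective forces
and force compilers.
-/

open Set MeasureTheory
open scoped ContDiff

namespace Vale.Agent.P113

/-- Points of `ℝ³`; functions on the flat torus are `ℤ³`-periodic functions on `ℝ³`. -/
abbrev R3 : Type := Fin 3 → ℝ

/-- Time-dependent vector fields. -/
abbrev VField : Type := ℝ → R3 → R3

/-- Time-dependent scalar fields. -/
abbrev SField : Type := ℝ → R3 → ℝ

/-- The flat torus `(ℝ/ℤ)³`. -/
abbrev T3 : Type := Fin 3 → AddCircle (1 : ℝ)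

/-- The projection `ℝ³ → (ℝ/ℤ)³`. -/
def toTorus (x : R3) : T3 := fun i => ((x i : ℝ) : AddCircle (1 : ℝ))

/-- `F(t,·)` is `ℤ³`-periodic, i.e. a function on the torus, for every `t ∈ J`. -/
def PeriodicOn {E : Type} (J : Set ℝ) (F : ℝ → R3 → E) : Prop :=
  ∀ t ∈ J, ∀ (x : R3) (k : Fin 3 → ℤ), F t (x + fun i => (k i : ℝ)) = F t x

/-- The `i`-th spatial partial derivative of a scalar function. -/
noncomputable def dX (i : Fin 3) (g : R3 → ℝ) (x : R3) : ℝ := fderiv ℝ g x (Pi.single i 1)

/-- `g` is of class `C^n` on `ℝ³`. -/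
def IsClass (n : ℕ) (g : R3 → ℝ) : Prop := ContDiff ℝ n g

/-- `F` is continuous on `[0,T] × ℝ³`. -/
def ContOn (T : ℝ) (F : SField) : Prop :=
  ContinuousOn (fun z : ℝ × R3 => F z.1 z.2) (Icc 0 T ×ˢ univ)

/-- `F` is smooth on `[0,∞) × ℝ³`. -/
def SmoothOnHalf (F : SField) : Prop :=
  ContDiffOn ℝ ∞ (fun z : ℝ × R3 => F z.1 z.2) (Ici 0 ×ˢ univ)

/-- `(u,p)` is a classical solution on `[0,T] × T³` of
`∂ₜu + (u·∇)u = -∇p + νΔu + f`, `div u = 0`, `u(0,·) = 0`, with `p` of mean zero. -/
structure IsClassicalSolution (ν : ℝ) (f : VField) (T : ℝ) (u : VField) (p : SField) : Prop where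
  periodic_u : PeriodicOn (Icc 0 T) u
  periodic_p : PeriodicOn (Icc 0 T) p
  time_diff : ∀ x i, DifferentiableOn ℝ (fun t => u t x i) (Icc 0 T)
  space_diff : ∀ t ∈ Icc 0 T, ∀ i, IsClass 2 (fun y => u t y i)
  p_diff : ∀ t ∈ Icc 0 T, IsClass 1 (p t)
  cont_u : ∀ i, ContOn T (fun t x => u t x i)
  cont_dt : ∀ i, ContOn T (fun t x => derivWithin (fun s => u s x i) (Icc 0 T) t)
  cont_dx : ∀ i j, ContOn T (fun t x => dX j (fun y => u t y i) x)
  cont_dxx : ∀ i j k, ContOn T (fun t x => dX k (dX j (fun y => u t y i)) x)
  cont_p : ContOn T p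
  cont_dp : ∀ i, ContOn T (fun t x => dX i (p t) x)
  mean_p : ∀ t ∈ Icc 0 T, ∫ x in Icc (0 : R3) 1, p t x = 0
  momentum : ∀ t ∈ Icc 0 T, ∀ x i,
    derivWithin (fun s => u s x i) (Icc 0 T) t + ∑ j, u t x j * dX j (fun y => u t y i) x
      = - dX i (p t) x + ν * ∑ j, dX j (dX j (fun y => u t y i)) x + f t x i
  div_free : ∀ t ∈ Icc 0 T, ∀ x, ∑ j, dX j (fun y => u t y j) x = 0
  initial : ∀ x, u 0 x = 0

/-- `(u,p)` is a global smooth solution. -/
structure IsGlobalSmoothSolution (ν : ℝ) (f : VField) (u : VField) (p : SField) : Prop where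
  smooth_u : ∀ i, SmoothOnHalf (fun t x => u t x i)
  smooth_p : SmoothOnHalf p
  classical : ∀ T, 0 < T → IsClassicalSolution ν f T u p

/-- `X : [0,∞) → ℝ³` is (a lift to `ℝ³` of) the trajectory of the point `a` of the torus:
`X' = u(t,X)`, `X(0) = a`. -/
structure IsTrajectory (u : VField) (a : T3) (X : ℝ → R3) : Prop where
  start : toTorus (X 0) = a
  ode : ∀ t, 0 ≤ t → ∀ i, HasDerivWithinAt (fun s => X s i) (u t (X t) i) (Ici 0) t

/-- A deterministic one-tape Turing machine with states `0,…,n` (`0` the initial state, some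
of them halting) and tape alphabet `0,…,m` (`0` the blank). The transition function gives the
new state, the symbol to be written and the move of the head: `0` for left, `1` for no move,
`2` for right. -/
structure Machine : Type where
  n : ℕ
  m : ℕ
  halting : Fin (n + 1) → Bool
  next : Fin (n + 1) → Fin (m + 1) → Fin (n + 1) × Fin (m + 1) × Fin 3

/-- Input words of a machine. -/
abbrev Word (M : Machine) : Type := List (Fin (M.m + 1))

/-- Configurations: state, contents of the two-sided tape, position of the head. -/
structure Config (M : Machine) : Type where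
  state : Fin (M.n + 1)
  tape : ℤ → Fin (M.m + 1)
  pos : ℤ

/-- One computation step. -/
def Machine.step (M : Machine) (c : Config M) : Config M where
  state := (M.next c.state (c.tape c.pos)).1
  tape := Function.update c.tape c.pos (M.next c.state (c.tape c.pos)).2.1
  pos := c.pos + ((M.next c.state (c.tape c.pos)).2.2 : ℕ) - 1

/-- The initial configuration: initial state, `w` on an otherwise blank tape, the head at its
first cell (cell `0`). -/
def Machine.init (M : Machine) (w : Word M) : Config M where
  state := 0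
  tape := fun z => if 0 ≤ z then w.getD z.toNat 0 else 0
  pos := 0

/-- `M` reaches a halting state on input `w` after finitely many steps, possibly none. -/
def Machine.HaltsOn (M : Machine) (w : Word M) : Prop :=
  ∃ k : ℕ, M.halting (M.step^[k] (M.init w)).state = true

/-- Finite descriptions handed to algorithms: list of halting flags, transition table
(one row for each state, one entry for each symbol), word. -/
abbrev Description : Type := List Bool × List (List (ℕ × ℕ × ℕ)) × List ℕ

/-- The description of the pair `(M,w)`. -/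
def describe (M : Machine) (w : Word M) : Description :=
  (List.ofFn M.halting,
    List.ofFn (fun q => List.ofFn (fun s =>
      ((M.next q s).1.val, (M.next q s).2.1.val, (M.next q s).2.2.val))),
    w.map Fin.val)

/-- Names of rational numbers: `(a,b,c)` names `(a-b)/(c+1)`. -/
abbrev Name : Type := ℕ × ℕ × ℕ

/-- The rational number with a given name. -/
def Name.val (q : Name) : ℚ := ((q.1 : ℚ) - q.2.1) / (q.2.2 + 1)

/-- The rational point of `ℝ³` with given names of its coordinates. -/
def pointVal (x : Name × Name × Name) : R3 :=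
  ![((Name.val x.1 : ℚ) : ℝ), ((Name.val x.2.1 : ℚ) : ℝ), ((Name.val x.2.2 : ℚ) : ℝ)]

/-- First-order derivatives on `[0,∞) × ℝ³`: `none` is the time derivative (one-sided at time
`0`), `some i` the `i`-th spatial partial derivative. -/
noncomputable def partialD (d : Option (Fin 3)) (F : SField) : SField :=
  d.elim (fun t x => derivWithin (fun s => F s x) (Ici 0) t) (fun i t x => dX i (F t) x)

/-- Mixed derivatives of any order, indexed by lists of directions. -/
noncomputable def mixedD (l : List (Option (Fin 3))) (F : SField) : SField :=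
  l.foldr partialD F

/-- The program `c` returns each mixed derivative of each component of `f` at each rational
point of `[0,∞) × ℝ³` to any prescribed rational accuracy. -/
def ComputesForce (c : Nat.Partrec.Code) (f : VField) : Prop :=
  ∀ (l : List (Option (Fin 3))) (i : Fin 3) (t : Name) (x : Name × Name × Name) (ε : Name),
    0 ≤ t.val → 0 < ε.val →
      ∃ r : Name, Encodable.encode r ∈ c.eval (Encodable.encode (l, i, t, x, ε)) ∧
        |((r.val : ℚ) : ℝ) - mixedD l (fun s y => f s y i) ((t.val : ℚ) : ℝ) (pointVal x)|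
          ≤ ((ε.val : ℚ) : ℝ)

/-- `compile` is a force compiler which outputs, for every `(M,w)`, a program for the effective
smooth force `f M w` on the torus; for times `t ≥ T₀` this force is periodic in time and
depends on `M` only. -/
structure IsForceCompiler (compile : Description → Nat.Partrec.Code)
    (f : (M : Machine) → Word M → VField) (T₀ : ℝ) : Prop where
  computable : Computable compile
  periodic_space : ∀ M w, PeriodicOn (Ici 0) (f M w)
  smooth : ∀ M w i, SmoothOnHalf (fun t x => f M w t x i)
  effective : ∀ M w, ComputesForce (compile (describe M w)) (f M w)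
  T₀_nonneg : 0 ≤ T₀
  periodic_time : ∀ M w, ∃ P : ℝ, 0 < P ∧ ∀ t, T₀ ≤ t → ∀ x, f M w (t + P) x = f M w t x
  input_free : ∀ M w w', ∀ t, T₀ ≤ t → ∀ x, f M w t x = f M w' t x

end Vale.Agent.P113
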