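import Vale.Agent.P113.Answer

open Set

namespace Vale.Agent.P113

theorem exists_code_of_computable {α σ : Type} [Primcodable α] [Primcodable σ] {f : α → σ}
    (h : Computable f) : ∃ c : Nat.Partrec.Code, ∀ z : α,
    Encodable.encode (f z) ∈ c.eval (Encodable.encode z) := by
  obtain ⟨c, hc⟩ := Nat.Partrec.Code.exists_code.1 h
  refine ⟨c, fun z => ?_⟩
  rw [hc]
  simp [Encodable.encodek]

theorem exists_code_pair {α β σ : Type} [Primcodable α] [Primcodable β] [Primcodable σ]
    {f : α × β → σ} (h : Computable f) : ∃ compile : α → Nat.Partrec.Code,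
    Computable compile ∧ ∀ a b,
    Encodable.encode (f (a, b)) ∈ (compile a).eval (Encodable.encode b) := by
  obtain ⟨c, hc⟩ := exists_code_of_computable h
  refine ⟨fun d => Nat.Partrec.Code.curry c (Encodable.encode d), ?_, ?_⟩
  · exact (Nat.Partrec.Code.primrec₂_curry.comp (Primrec.const c) Primrec.encode).to_comp
  · intro a b
    rw [Nat.Partrec.Code.eval_curry, ← Encodable.encode_prod_val]
    exact hc (a, b)

theorem isForceCompiler (compile : Description → Nat.Partrec.Code) (hcomp : Computable compile)
    (hc : ∀ (d : Description) (q : Query),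
      Encodable.encode (answer (d, q)) ∈ (compile d).eval (Encodable.encode q)) :
    IsForceCompiler compile (fun M w => forceOf (amp M w)) 1 where
  computable := hcomp
  periodic_space := fun M w t _ x k => rfl
  smooth := fun M w => smooth_forceOf _
  effective := fun M w l i t x ε ht hε =>
    ⟨answer (describe M w, l, i, t, x, ε), hc (describe M w) (l, i, t, x, ε),
      answer_correct M w l i t x ε ht hε⟩
  T₀_nonneg := by norm_num
  periodic_time := fun M w => by
    refine ⟨1, by norm_num, fun t ht x => ?_⟩
    unfold forceOf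
    rw [bump_eq_zero ht, bump_eq_zero (by linarith)]
  input_free := fun M w w' t ht x => by
    unfold forceOf
    rw [bump_eq_zero ht, mul_zero, mul_zero]

theorem exists_compile : ∃ compile : Description → Nat.Partrec.Code,
    Computable compile ∧ ∀ (d : Description) (q : Query),
      Encodable.encode (answer (d, q)) ∈ (compile d).eval (Encodable.encode q) :=
  exists_code_pair primrec_answer.to_comp

theorem main_aux (ν : ℝ) (hν : 0 < ν) (M : Machine) (w : Word M) :
    ∃ (u : VField) (p : SField) (X : ℝ → R3),
      IsGlobalSmoothSolution ν (forceOf (amp M w)) u p ∧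
      (∀ T, 0 < T → ∀ (v : VField) (q : SField),
        IsClassicalSolution ν (forceOf (amp M w)) T v q →
        ∀ t ∈ Icc 0 T, ∀ x, v t x = u t x ∧ q t x = p t x) ∧
      IsTrajectory u (toTorus 0) X ∧
      (∀ Y, IsTrajectory u (toTorus 0) Y → ∀ t, 0 ≤ t → toTorus (Y t) = toTorus (X t)) ∧
      ((∃ t, 0 ≤ t ∧ toTorus (X t) ∈ target) ↔ M.HaltsOn w) := by
  refine ⟨velOf (amp M w), fun _ _ => 0, trajOf (amp M w), global_velOf ν _,
    fun T hT v q h => unique_velOf ν _ hν T hT v q h,
    isTrajectory_trajOf _, trajectory_unique _, ?_⟩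
  rw [traj_hits_iff _ (amp_nonneg M w)]
  exact amp_pos_iff M w

/-- The main theorem. -/
theorem main (ν : ℝ) (hν : 0 < ν) :
    ∃ (a : T3) (O : Set T3) (compile : Description → Nat.Partrec.Code)
      (f : (M : Machine) → Word M → VField) (T₀ : ℝ),
      IsOpen O ∧ IsForceCompiler compile f T₀ ∧
      ∀ (M : Machine) (w : Word M),
        ∃ (u : VField) (p : SField) (X : ℝ → R3),
          IsGlobalSmoothSolution ν (f M w) u p ∧
          (∀ T, 0 < T → ∀ (v : VField) (q : SField), IsClassicalSolution ν (f M w) T v q →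
            ∀ t ∈ Icc 0 T, ∀ x, v t x = u t x ∧ q t x = p t x) ∧
          IsTrajectory u a X ∧
          (∀ Y, IsTrajectory u a Y → ∀ t, 0 ≤ t → toTorus (Y t) = toTorus (X t)) ∧
          ((∃ t, 0 ≤ t ∧ toTorus (X t) ∈ O) ↔ M.HaltsOn w) := by
  obtain ⟨compile, hcomp, hc⟩ := exists_compile
  exact ⟨toTorus 0, target, compile, fun M w => forceOf (amp M w), 1, isOpen_target,
    isForceCompiler compile hcomp hc, main_aux ν hν⟩

end Vale.Agent.P113
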