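import Vale.Agent.P113.Defs

namespace Vale.Agent.P113

/-- Raw configurations: state, cells to the left of the head (nearest first), cells from the
head on to the right. -/
abbrev RawConfig : Type := ℕ × List ℕ × List ℕ

/-- The applicable entry of the transition table. -/
def lookupRaw (d : Description) (c : RawConfig) : ℕ × ℕ × ℕ :=
  (d.2.1.getD c.1 []).getD (c.2.2.getD 0 0) (0, 0, 0)

/-- The effect of a table entry. -/
def moveRaw (e : ℕ × ℕ × ℕ) (c : RawConfig) : RawConfig :=
  if e.2.2 = 0 then (e.1, c.2.1.tail, c.2.1.getD 0 0 :: e.2.1 :: c.2.2.tail)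
  else if e.2.2 = 1 then (e.1, c.2.1, e.2.1 :: c.2.2.tail)
  else (e.1, e.2.1 :: c.2.1, c.2.2.tail)

/-- One raw step. -/
def rawStep (d : Description) (c : RawConfig) : RawConfig := moveRaw (lookupRaw d c) c

/-- The raw run. -/
def rawRun (d : Description) (k : ℕ) : RawConfig := (rawStep d)^[k] (0, [], d.2.2)

/-- Whether the state after `k` steps is halting. -/
def rawHalted (d : Description) (k : ℕ) : Bool := d.1.getD (rawRun d k).1 false

theorem getD_ofFn {α : Type} {n : ℕ} (f : Fin n → α) (d : α) (i : Fin n) :
    (List.ofFn f).getD i.val d = f i := by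
  rw [List.getD_eq_getElem _ _ (by simp)]
  simp

theorem getD_ofFn' {α : Type} {n : ℕ} (f : Fin n → α) (d : α) (i : Fin n) (j : ℕ)
    (h : i.val = j) : (List.ofFn f).getD j d = f i := by
  rw [← h, getD_ofFn]

/-- Agreement of configurations. -/
structure Agree {M : Machine} (c : Config M) (r : RawConfig) : Prop where
  state : c.state.val = r.1
  right : ∀ i : ℕ, (c.tape (c.pos + i)).val = r.2.2.getD i 0
  left : ∀ i : ℕ, (c.tape (c.pos - 1 - i)).val = r.2.1.getD i 0

theorem lookup_agree {M : Machine} {w : Word M} {c : Config M} {r : RawConfig} (h : Agree c r) :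
    lookupRaw (describe M w) r = ((M.next c.state (c.tape c.pos)).1.val,
      (M.next c.state (c.tape c.pos)).2.1.val, (M.next c.state (c.tape c.pos)).2.2.val) := by
  unfold lookupRaw describe
  have h0 := h.right 0
  simp only [Nat.cast_zero, add_zero] at h0
  rw [getD_ofFn' _ _ c.state _ h.state, getD_ofFn' _ _ (c.tape c.pos) _ h0]

theorem getD_tail (l : List ℕ) (i : ℕ) : l.tail.getD i 0 = l.getD (i + 1) 0 := by
  cases l <;> simp

theorem step_agree {M : Machine} {w : Word M} {c : Config M} {r : RawConfig} (h : Agree c r) :
    Agree (M.step c) (rawStep (describe M w) r) := by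
  unfold rawStep
  rw [lookup_agree h]
  rcases hn : M.next c.state (c.tape c.pos) with ⟨q', s', mv⟩
  have hstep : M.step c = ⟨q', Function.update c.tape c.pos s', c.pos + (mv : ℕ) - 1⟩ := by
    unfold Machine.step
    rw [hn]
  rw [hstep]
  obtain ⟨mv, hmv⟩ := mv
  interval_cases mv
  · simp only [moveRaw, if_true, Nat.cast_zero, add_zero]
    constructor
    · rfl
    · intro i
      rcases i with _ | _ | i
      · have h1 := h.left 0
        simp only [Nat.cast_zero, sub_zero] at h1
        simp only [Nat.cast_zero, add_zero, List.getD_cons_zero]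
        rw [Function.update_of_ne (by omega)]
        exact h1
      · simp only [Nat.cast_one, zero_add, List.getD_cons_succ, List.getD_cons_zero]
        rw [show c.pos - 1 + 1 = c.pos by omega, Function.update_self]
      · have h1 := h.right (i + 1)
        simp only [List.getD_cons_succ]
        rw [getD_tail, Function.update_of_ne (by push_cast; omega)]
        rw [← h1]
        congr 2
        push_cast
        omega
    · intro i
      have h1 := h.left (i + 1)
      rw [getD_tail]
      simp only []
      rw [Function.update_of_ne (by omega)]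
      rw [← h1]
      congr 2
      push_cast
      omega
  · simp only [moveRaw, Nat.cast_one, add_sub_cancel_right]
    constructor
    · rfl
    · intro i
      rcases i with _ | i
      · simp
      · have h1 := h.right (i + 1)
        simp only [one_ne_zero, if_false, if_true, List.getD_cons_succ]
        rw [getD_tail, Function.update_of_ne (by push_cast; omega)]
        exact h1
    · intro i
      simp only [one_ne_zero, if_false, if_true]
      have h1 := h.left i
      rw [Function.update_of_ne (by omega)]
      exact h1
  · simp only [moveRaw, Nat.cast_ofNat]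
    constructor
    · rfl
    · intro i
      simp only [OfNat.ofNat_ne_zero, OfNat.ofNat_ne_one, if_false]
      have h1 := h.right (i + 1)
      rw [getD_tail, Function.update_of_ne (by omega)]
      rw [← h1]
      congr 2
      push_cast
      omega
    · intro i
      simp only [OfNat.ofNat_ne_zero, OfNat.ofNat_ne_one, if_false]
      rcases i with _ | i
      · simp only [Nat.cast_zero, sub_zero, List.getD_cons_zero]
        rw [show c.pos + 2 - 1 - 1 = c.pos by omega, Function.update_self]
      · have h1 := h.left i
        simp only [List.getD_cons_succ]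
        rw [Function.update_of_ne (by push_cast; omega)]
        rw [← h1]
        congr 2
        push_cast
        omega

theorem init_agree (M : Machine) (w : Word M) : Agree (M.init w) (0, [], (describe M w).2.2) := by
  constructor
  · rfl
  · intro i
    have hi : (0 : ℤ) ≤ 0 + (i : ℤ) := by omega
    simp only [Machine.init, describe, zero_add, Int.toNat_natCast]
    simp only [List.getD_eq_getElem?_getD, List.getElem?_map]
    cases w[i]? <;> simp
  · intro i
    have hi : ¬ ((0 : ℤ) ≤ 0 - 1 - (i : ℤ)) := by omega
    simp only [Machine.init, hi, if_false]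
    simp

theorem run_agree (M : Machine) (w : Word M) (k : ℕ) :
    Agree (M.step^[k] (M.init w)) (rawRun (describe M w) k) := by
  induction k with
  | zero => exact init_agree M w
  | succ k ih =>
    unfold rawRun at ih ⊢
    rw [Function.iterate_succ_apply', Function.iterate_succ_apply']
    exact step_agree ih

theorem rawHalted_eq (M : Machine) (w : Word M) (k : ℕ) :
    rawHalted (describe M w) k = M.halting (M.step^[k] (M.init w)).state := by
  unfold rawHalted
  have h := (run_agree M w k).state
  rw [show (describe M w).1 = List.ofFn M.halting from rfl, getD_ofFn' _ _ _ _ h]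

/-! ### Primitive recursiveness -/

theorem primrec_lookupRaw : Primrec₂ lookupRaw := by
  unfold lookupRaw
  have h1 : Primrec (fun p : Description × RawConfig => p.1.2.1) :=
    Primrec.fst.comp (Primrec.snd.comp Primrec.fst)
  have h2 : Primrec (fun p : Description × RawConfig => p.2.1) :=
    Primrec.fst.comp Primrec.snd
  have h3 : Primrec (fun p : Description × RawConfig => p.2.2.2) :=
    Primrec.snd.comp (Primrec.snd.comp Primrec.snd)
  have h4 : Primrec (fun p : Description × RawConfig => p.2.2.2.getD 0 0) :=
    (Primrec.list_getD 0).comp h3 (Primrec.const 0)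
  have h5 : Primrec (fun p : Description × RawConfig => p.1.2.1.getD p.2.1 []) :=
    (Primrec.list_getD []).comp h1 h2
  exact (Primrec.list_getD (0, 0, 0)).comp h5 h4

theorem primrec_moveRaw : Primrec₂ moveRaw := by
  unfold moveRaw
  have e1 : Primrec (fun p : (ℕ × ℕ × ℕ) × RawConfig => p.1.1) := Primrec.fst.comp Primrec.fst
  have e2 : Primrec (fun p : (ℕ × ℕ × ℕ) × RawConfig => p.1.2.1) :=
    Primrec.fst.comp (Primrec.snd.comp Primrec.fst)
  have e3 : Primrec (fun p : (ℕ × ℕ × ℕ) × RawConfig => p.1.2.2) :=
    Primrec.snd.comp (Primrec.snd.comp Primrec.fst)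
  have L : Primrec (fun p : (ℕ × ℕ × ℕ) × RawConfig => p.2.2.1) :=
    Primrec.fst.comp (Primrec.snd.comp Primrec.snd)
  have R : Primrec (fun p : (ℕ × ℕ × ℕ) × RawConfig => p.2.2.2) :=
    Primrec.snd.comp (Primrec.snd.comp Primrec.snd)
  have Lt := Primrec.list_tail.comp L
  have Rt := Primrec.list_tail.comp R
  have L0 := (Primrec.list_getD 0).comp L (Primrec.const 0)
  refine Primrec.ite (Primrec.eq.comp e3 (Primrec.const 0)) ?_ ?_
  · exact Primrec.pair e1 (Primrec.pair Lt (Primrec.list_cons.comp L0
      (Primrec.list_cons.comp e2 Rt)))
  · refine Primrec.ite (Primrec.eq.comp e3 (Primrec.const 1)) ?_ ?_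
    · exact Primrec.pair e1 (Primrec.pair L (Primrec.list_cons.comp e2 Rt))
    · exact Primrec.pair e1 (Primrec.pair (Primrec.list_cons.comp e2 L) Rt)

theorem primrec_rawStep : Primrec₂ rawStep := by
  unfold rawStep
  exact primrec_moveRaw.comp primrec_lookupRaw Primrec.snd

theorem primrec_rawRun : Primrec₂ rawRun := by
  have h0 : Primrec (fun p : Description × ℕ => ((0, [], p.1.2.2) : RawConfig)) :=
    Primrec.pair (Primrec.const 0) (Primrec.pair (Primrec.const [])
      (Primrec.snd.comp (Primrec.snd.comp Primrec.fst)))
  have h1 : Primrec₂ (fun (p : Description × ℕ) (c : RawConfig) => rawStep p.1 c) :=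
    Primrec₂.comp primrec_rawStep (Primrec.fst.comp Primrec.fst) Primrec.snd
  have h2 : Primrec (fun p : Description × ℕ => p.2) := Primrec.snd
  have h3 := Primrec.nat_iterate h2 h0 h1
  exact h3.of_eq (fun p => rfl)

theorem primrec_rawHalted : Primrec₂ rawHalted := by
  unfold rawHalted
  exact (Primrec.list_getD false).comp (Primrec.fst.comp Primrec.fst)
    (Primrec.fst.comp primrec_rawRun)

/-- The first halting time if it is at most `m`, else `m+1`. -/
def haltIdx (d : Description) (m : ℕ) : ℕ :=
  (List.range (m + 1)).findIdx (fun k => rawHalted d k)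

theorem primrec_haltIdx : Primrec₂ haltIdx := by
  unfold haltIdx
  exact Primrec.list_findIdx (Primrec.list_range.comp (Primrec.succ.comp Primrec.snd))
    (primrec_rawHalted.comp (Primrec.fst.comp Primrec.fst) Primrec.snd)

/-- The halting time. -/
noncomputable def haltTime (M : Machine) (w : Word M) : ℕ :=
  sInf {k | M.halting (M.step^[k] (M.init w)).state = true}

open Classical in
/-- The amplitude: `2^{-n}` if `M` halts on `w` at time `n`, and `0` if it does not halt. -/
noncomputable def amp (M : Machine) (w : Word M) : ℝ :=
  if M.HaltsOn w then (1 / 2 : ℝ) ^ (haltTime M w) else 0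

theorem amp_nonneg (M : Machine) (w : Word M) : 0 ≤ amp M w := by
  unfold amp
  split_ifs <;> positivity

theorem amp_pos_iff (M : Machine) (w : Word M) : 0 < amp M w ↔ M.HaltsOn w := by
  unfold amp
  split_ifs with h
  · simp [h]
  · simp [h]

theorem haltTime_spec (M : Machine) (w : Word M) (h : M.HaltsOn w) :
    M.halting (M.step^[haltTime M w] (M.init w)).state = true :=
  Nat.sInf_mem (s := {k | M.halting (M.step^[k] (M.init w)).state = true}) h

theorem haltTime_le (M : Machine) (w : Word M) (k : ℕ)
    (h : M.halting (M.step^[k] (M.init w)).state = true) : haltTime M w ≤ k :=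
  Nat.sInf_le h

theorem rawHalted_false_of_lt (d : Description) (m n : ℕ) (h : n < haltIdx d m) :
    rawHalted d n = false := by
  have h2 := List.not_of_lt_findIdx (p := fun k => rawHalted d k)
    (xs := List.range (m + 1)) (i := n) h
  simpa using h2

theorem rawHalted_true_of_le (d : Description) (m : ℕ) (h : haltIdx d m ≤ m) :
    rawHalted d (haltIdx d m) = true := by
  have hlt : haltIdx d m < (List.range (m + 1)).length := by simp; omega
  have h0 : rawHalted d ((List.range (m + 1))[haltIdx d m]'hlt) = true :=
    List.findIdx_getElem (p := fun k => rawHalted d k) (xs := List.range (m + 1)) (w := hlt)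
  rwa [List.getElem_range] at h0

theorem amp_of_le (M : Machine) (w : Word M) (m : ℕ) (h : haltIdx (describe M w) m ≤ m) :
    amp M w = (1 / 2 : ℝ) ^ haltIdx (describe M w) m := by
  have h1 := rawHalted_true_of_le _ m h
  rw [rawHalted_eq] at h1
  have hH : M.HaltsOn w := ⟨_, h1⟩
  have he : haltTime M w = haltIdx (describe M w) m := by
    apply le_antisymm (haltTime_le M w _ h1)
    by_contra hlt
    push Not at hlt
    have h2 := rawHalted_false_of_lt _ m _ hlt
    rw [rawHalted_eq, haltTime_spec M w hH] at h2
    exact absurd h2 (by simp)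
  unfold amp
  rw [if_pos hH, he]

theorem amp_of_gt (M : Machine) (w : Word M) (m : ℕ) (h : m < haltIdx (describe M w) m) :
    amp M w ≤ (1 / 2 : ℝ) ^ m := by
  unfold amp
  split_ifs with hH
  · apply pow_le_pow_of_le_one (by norm_num) (by norm_num)
    by_contra hlt
    push Not at hlt
    have h3 := haltTime_spec M w hH
    have h4 := rawHalted_false_of_lt _ m _ (hlt.trans h)
    rw [rawHalted_eq, h3] at h4
    exact absurd h4 (by simp)
  · positivity

end Vale.Agent.P113
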