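import Vale.Agent.P113.Defs

open Set MeasureTheory
open scoped ContDiff

namespace Vale.Agent.P113

theorem isClass_two {g : R3 → ℝ} : IsClass 2 g ↔ ContDiff ℝ 2 g := by
  unfold IsClass
  norm_num

theorem isClass_one {g : R3 → ℝ} : IsClass 1 g ↔ ContDiff ℝ 1 g := by
  unfold IsClass
  norm_num

/-- The integral over the unit cube of a partial derivative of a periodic `C¹` function is `0`. -/
theorem integral_dX_eq_zero (j : Fin 3) (φ : R3 → ℝ) (hφ : ContDiff ℝ 1 φ)
    (hper : ∀ (x : R3) (k : Fin 3 → ℤ), φ (x + fun i => (k i : ℝ)) = φ x) :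
    ∫ x in Icc (0 : R3) 1, dX j φ x = 0 := by
  have hdiff : Differentiable ℝ φ := hφ.differentiable (by norm_num)
  have hcf : Continuous (fun x => fderiv ℝ φ x) := hφ.continuous_fderiv (by norm_num)
  have hcd : Continuous (fun x => dX j φ x) := by
    unfold dX
    exact hcf.clm_apply continuous_const
  let f : (Fin 3 → ℝ) → Fin 3 → ℝ := fun x => Pi.single j (φ x)
  let f' : (Fin 3 → ℝ) → (Fin 3 → ℝ) →L[ℝ] Fin 3 → ℝ := fun x =>
    (ContinuousLinearMap.single ℝ (fun _ => ℝ) j).comp (fderiv ℝ φ x)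
  have key := MeasureTheory.integral_divergence_of_hasFDerivAt_off_countable (n := 2)
    (0 : Fin 3 → ℝ) 1 (by intro i; simp) f f' ∅ countable_empty
    (by
      apply Continuous.continuousOn
      exact (ContinuousLinearMap.single ℝ (fun _ => ℝ) j).continuous.comp hφ.continuous)
    (by
      intro x _
      exact (ContinuousLinearMap.single ℝ (fun _ => ℝ) j).hasFDerivAt.comp x
        (hdiff x).hasFDerivAt)
    (by
      apply Continuous.integrableOn_Icc
      have : (fun x => ∑ i, (f' x) (Pi.single i 1) i) = fun x => dX j φ x := by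
        funext x
        simp only [f', dX]
        rw [Finset.sum_eq_single j]
        · simp
        · intro b _ hb
          simp [hb]
        · simp
      rw [this]
      exact hcd)
  have h1 : (fun x => ∑ i, (f' x) (Pi.single i 1) i) = fun x => dX j φ x := by
    funext x
    simp only [f', dX]
    rw [Finset.sum_eq_single j]
    · simp
    · intro b _ hb
      simp [hb]
    · simp
  rw [h1] at key
  rw [key]
  apply Finset.sum_eq_zero
  intro i _
  rw [sub_eq_zero]
  congr 1
  funext x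
  by_cases hij : i = j
  · subst hij
    simp only [f, Pi.single_eq_same]
    have := hper (i.insertNth ((0 : Fin 3 → ℝ) i) x) (Pi.single i 1)
    rw [← this]
    congr 1
    funext l
    refine Fin.succAboveCases i ?_ (fun l => ?_) l
    · simp
    · simp
  · simp [f, hij]

/-! ### Rules for partial derivatives -/

theorem dX_mul (j : Fin 3) {f g : R3 → ℝ} {x : R3} (hf : DifferentiableAt ℝ f x)
    (hg : DifferentiableAt ℝ g x) :
    dX j (fun y => f y * g y) x = dX j f x * g x + f x * dX j g x := by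
  unfold dX
  rw [fderiv_fun_mul hf hg]
  simp
  ring

theorem dX_add (j : Fin 3) {f g : R3 → ℝ} {x : R3} (hf : DifferentiableAt ℝ f x)
    (hg : DifferentiableAt ℝ g x) :
    dX j (fun y => f y + g y) x = dX j f x + dX j g x := by
  unfold dX
  rw [fderiv_fun_add hf hg]
  simp

theorem dX_sub_const (j : Fin 3) {f : R3 → ℝ} {x : R3} (c : ℝ) :
    dX j (fun y => f y - c) x = dX j f x := by
  unfold dX
  rw [fderiv_sub_const]

theorem dX_const (j : Fin 3) {x : R3} (c : ℝ) :
    dX j (fun _ => c) x = 0 := by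
  unfold dX
  simp

theorem dX_const_mul (j : Fin 3) {f : R3 → ℝ} {x : R3} (c : ℝ) (hf : DifferentiableAt ℝ f x) :
    dX j (fun y => c * f y) x = c * dX j f x := by
  rw [dX_mul j (by fun_prop) hf, dX_const]
  ring

theorem contDiff_dX (j : Fin 3) {f : R3 → ℝ} (hf : ContDiff ℝ 2 f) : ContDiff ℝ 1 (dX j f) := by
  unfold dX
  have h : ContDiff ℝ 1 (fderiv ℝ f) := hf.fderiv_right (by norm_num)
  exact h.clm_apply contDiff_const

theorem dX_periodic (j : Fin 3) {f : R3 → ℝ}
    (hper : ∀ (x : R3) (k : Fin 3 → ℤ), f (x + fun i => (k i : ℝ)) = f x)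
    (x : R3) (k : Fin 3 → ℤ) : dX j f (x + fun i => (k i : ℝ)) = dX j f x := by
  unfold dX
  have h : (fun y => f (y + fun i => (k i : ℝ))) = f := by
    funext y
    exact hper y k
  have h2 := fderiv_comp_add_right (𝕜 := ℝ) (f := f) (x := x) (fun i => (k i : ℝ))
  rw [h] at h2
  rw [← h2]

/-- The energy identity at a fixed time, in differential form. -/
theorem energy_pointwise (ν : ℝ) (V : Fin 3 → R3 → ℝ) (Q : R3 → ℝ) (a : Fin 3 → ℝ)
    (hV : ∀ i, ContDiff ℝ 2 (V i)) (hQ : ContDiff ℝ 1 Q) (x : R3)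
    (hdiv : ∑ j, dX j (V j) x = 0) :
    ∑ i, 2 * (V i x - a i) *
      (-(∑ j, V j x * dX j (V i) x) - dX i Q x + ν * ∑ j, dX j (dX j (V i)) x)
    = -(∑ j, dX j (fun y => V j y * ∑ i, (V i y - a i) * (V i y - a i)
          + 2 * ((V j y - a j) * Q y) + (-2 * ν) * ∑ i, (V i y - a i) * dX j (V i) y) x)
      - 2 * ν * ∑ j, ∑ i, dX j (V i) x * dX j (V i) x := by
  have hVd : ∀ i, Differentiable ℝ (V i) := fun i => (hV i).differentiable (by norm_num)
  have hVx : ∀ i, DifferentiableAt ℝ (V i) x := fun i => hVd i x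
  have hWx : ∀ i, DifferentiableAt ℝ (fun y => V i y - a i) x := fun i => (hVx i).sub_const _
  have hQx : DifferentiableAt ℝ Q x := hQ.differentiable (by norm_num) x
  have hdVx : ∀ i j, DifferentiableAt ℝ (dX j (V i)) x := fun i j =>
    (contDiff_dX j (hV i)).differentiable (by norm_num) x
  have hexp : ∀ j, dX j (fun y => V j y * ∑ i, (V i y - a i) * (V i y - a i)
          + 2 * ((V j y - a j) * Q y) + (-2 * ν) * ∑ i, (V i y - a i) * dX j (V i) y) x
      = dX j (V j) x * ∑ i, (V i x - a i) * (V i x - a i)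
        + V j x * ∑ i, (2 * (V i x - a i) * dX j (V i) x)
        + 2 * (dX j (V j) x * Q x + (V j x - a j) * dX j Q x)
        + (-2 * ν) * ∑ i, (dX j (V i) x * dX j (V i) x + (V i x - a i) * dX j (dX j (V i)) x) := by
    intro j
    have hsq : ∀ i, DifferentiableAt ℝ (fun y => (V i y - a i) * (V i y - a i)) x :=
      fun i => (hWx i).mul (hWx i)
    have hS : DifferentiableAt ℝ (fun y => ∑ i, (V i y - a i) * (V i y - a i)) x := by
      simp only [Fin.sum_univ_three]
      exact ((hsq 0).add (hsq 1)).add (hsq 2)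
    have hWd : ∀ i, DifferentiableAt ℝ (fun y => (V i y - a i) * dX j (V i) y) x :=
      fun i => (hWx i).mul (hdVx i j)
    have hT : DifferentiableAt ℝ (fun y => ∑ i, (V i y - a i) * dX j (V i) y) x := by
      simp only [Fin.sum_univ_three]
      exact ((hWd 0).add (hWd 1)).add (hWd 2)
    have hWQ : DifferentiableAt ℝ (fun y => (V j y - a j) * Q y) x := (hWx j).mul hQx
    have hVS : DifferentiableAt ℝ (fun y => V j y * ∑ i, (V i y - a i) * (V i y - a i)) x :=
      (hVx j).mul hS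
    have h2WQ : DifferentiableAt ℝ (fun y => 2 * ((V j y - a j) * Q y)) x := hWQ.const_mul 2
    have hnT : DifferentiableAt ℝ (fun y => (-2 * ν) * ∑ i, (V i y - a i) * dX j (V i) y) x :=
      hT.const_mul _
    have hVSW : DifferentiableAt ℝ (fun y => V j y * ∑ i, (V i y - a i) * (V i y - a i)
        + 2 * ((V j y - a j) * Q y)) x := hVS.add h2WQ
    rw [dX_add j hVSW hnT, dX_add j hVS h2WQ, dX_mul j (hVx j) hS,
      dX_const_mul j _ hWQ, dX_const_mul j _ hT, dX_mul j (hWx j) hQx, dX_sub_const]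
    have e1 : dX j (fun y => ∑ i, (V i y - a i) * (V i y - a i)) x
        = ∑ i, (2 * (V i x - a i) * dX j (V i) x) := by
      simp only [Fin.sum_univ_three]
      have h01 : DifferentiableAt ℝ (fun y => (V 0 y - a 0) * (V 0 y - a 0)
        + (V 1 y - a 1) * (V 1 y - a 1)) x := (hsq 0).add (hsq 1)
      rw [dX_add j h01 (hsq 2), dX_add j (hsq 0) (hsq 1),
        dX_mul j (hWx 0) (hWx 0), dX_mul j (hWx 1) (hWx 1), dX_mul j (hWx 2) (hWx 2),
        dX_sub_const, dX_sub_const, dX_sub_const]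
      ring
    have e2 : dX j (fun y => ∑ i, (V i y - a i) * dX j (V i) y) x
        = ∑ i, (dX j (V i) x * dX j (V i) x + (V i x - a i) * dX j (dX j (V i)) x) := by
      simp only [Fin.sum_univ_three]
      have h01 : DifferentiableAt ℝ (fun y => (V 0 y - a 0) * dX j (V 0) y
        + (V 1 y - a 1) * dX j (V 1) y) x := (hWd 0).add (hWd 1)
      rw [dX_add j h01 (hWd 2), dX_add j (hWd 0) (hWd 1),
        dX_mul j (hWx 0) (hdVx 0 j), dX_mul j (hWx 1) (hdVx 1 j), dX_mul j (hWx 2) (hdVx 2 j),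
        dX_sub_const, dX_sub_const, dX_sub_const]
    rw [e1, e2]
  rw [Finset.sum_congr rfl (fun j _ => hexp j)]
  simp only [Fin.sum_univ_three] at hdiv ⊢
  linear_combination (2 * Q x + ((V 0 x - a 0) * (V 0 x - a 0) + (V 1 x - a 1) * (V 1 x - a 1)
    + (V 2 x - a 2) * (V 2 x - a 2))) * hdiv

/-- The energy inequality at a fixed time. -/
theorem energy_integral_le (ν : ℝ) (hν : 0 ≤ ν) (V : Fin 3 → R3 → ℝ) (Q : R3 → ℝ)
    (a : Fin 3 → ℝ) (hV : ∀ i, ContDiff ℝ 2 (V i)) (hQ : ContDiff ℝ 1 Q)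
    (hVper : ∀ i, ∀ (x : R3) (k : Fin 3 → ℤ), V i (x + fun i => (k i : ℝ)) = V i x)
    (hQper : ∀ (x : R3) (k : Fin 3 → ℤ), Q (x + fun i => (k i : ℝ)) = Q x)
    (hdiv : ∀ x, ∑ j, dX j (V j) x = 0) :
    ∫ x in Icc (0 : R3) 1, ∑ i, 2 * (V i x - a i) *
      (-(∑ j, V j x * dX j (V i) x) - dX i Q x + ν * ∑ j, dX j (dX j (V i)) x) ≤ 0 := by
  have hpt := fun x => energy_pointwise ν V Q a hV hQ x (hdiv x)
  have hV1 : ∀ i, ContDiff ℝ 1 (V i) := fun i => (hV i).of_le (by norm_num)
  have hd1 : ∀ i j, ContDiff ℝ 1 (dX j (V i)) := fun i j => contDiff_dX j (hV i)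
  obtain ⟨Φ, hΦdef⟩ : ∃ Φ : Fin 3 → R3 → ℝ, ∀ j, Φ j =
      fun y => V j y * ∑ i, (V i y - a i) * (V i y - a i)
          + 2 * ((V j y - a j) * Q y) + (-2 * ν) * ∑ i, (V i y - a i) * dX j (V i) y :=
    ⟨_, fun _ => rfl⟩
  simp only [← hΦdef] at hpt
  have hΦ : ∀ j, ContDiff ℝ 1 (Φ j) := by
    intro j
    rw [hΦdef]
    have hW : ∀ i, ContDiff ℝ 1 (fun y => V i y - a i) := fun i => (hV1 i).sub contDiff_const
    have hS : ContDiff ℝ 1 (fun y => ∑ i, (V i y - a i) * (V i y - a i)) :=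
      ContDiff.sum (fun i _ => (hW i).mul (hW i))
    have hT : ContDiff ℝ 1 (fun y => ∑ i, (V i y - a i) * dX j (V i) y) :=
      ContDiff.sum (fun i _ => (hW i).mul (hd1 i j))
    exact (((hV1 j).mul hS).add (contDiff_const.mul ((hW j).mul hQ))).add
      (contDiff_const.mul hT)
  have hΦper : ∀ j, ∀ (x : R3) (k : Fin 3 → ℤ), Φ j (x + fun i => (k i : ℝ)) = Φ j x := by
    intro j x k
    simp only [hΦdef, hVper, hQper, dX_periodic j (hVper _)]
  have hcdX : ∀ j, Continuous (fun x => dX j (Φ j) x) := by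
    intro j
    unfold dX
    exact ((hΦ j).continuous_fderiv (by norm_num)).clm_apply continuous_const
  have hcsq : Continuous (fun x => 2 * ν * ∑ j, ∑ i, dX j (V i) x * dX j (V i) x) := by
    refine continuous_const.mul ?_
    exact continuous_finsetSum _ (fun j _ => continuous_finsetSum _ (fun i _ =>
      (hd1 i j).continuous.mul (hd1 i j).continuous))
  have hcsum : Continuous (fun x => ∑ j, dX j (Φ j) x) :=
    continuous_finsetSum _ (fun j _ => hcdX j)
  have h1 : ∫ x in Icc (0 : R3) 1, ∑ i, 2 * (V i x - a i) *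
      (-(∑ j, V j x * dX j (V i) x) - dX i Q x + ν * ∑ j, dX j (dX j (V i)) x)
      = ∫ x in Icc (0 : R3) 1, (-(∑ j, dX j (Φ j) x)
        - 2 * ν * ∑ j, ∑ i, dX j (V i) x * dX j (V i) x) := by
    congr 1
    funext x
    exact hpt x
  have hi1 : IntegrableOn (fun x => -(∑ j, dX j (Φ j) x)) (Icc (0 : R3) 1) :=
    hcsum.neg.integrableOn_Icc
  have hi2 : IntegrableOn (fun x => 2 * ν * ∑ j, ∑ i, dX j (V i) x * dX j (V i) x)
    (Icc (0 : R3) 1) := hcsq.integrableOn_Icc
  rw [h1, integral_sub hi1 hi2, integral_neg,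
    integral_finsetSum _ (fun j _ => (hcdX j).integrableOn_Icc)]
  rw [Finset.sum_eq_zero (fun j _ => integral_dX_eq_zero j _ (hΦ j) (hΦper j))]
  have hnn : 0 ≤ ∫ x in Icc (0 : R3) 1, 2 * ν * ∑ j, ∑ i, dX j (V i) x * dX j (V i) x := by
    apply integral_nonneg
    intro x
    have : 0 ≤ ∑ j, ∑ i, dX j (V i) x * dX j (V i) x :=
      Finset.sum_nonneg (fun j _ => Finset.sum_nonneg (fun i _ => mul_self_nonneg _))
    positivity
  linarith

/-- A continuous nonnegative function with nonpositive integral over the unit cube vanishes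
there. -/
theorem eqOn_cube_of_integral_nonpos (F : R3 → ℝ) (hF : Continuous F) (h0 : ∀ x, 0 ≤ F x)
    (hint : ∫ x in Icc (0 : R3) 1, F x ≤ 0) : ∀ x ∈ Icc (0 : R3) 1, F x = 0 := by
  have h1 : F =ᵐ[volume.restrict (Icc (0 : R3) 1)] 0 := by
    rw [← integral_eq_zero_iff_of_nonneg h0 hF.integrableOn_Icc]
    exact le_antisymm hint (integral_nonneg h0)
  have hne : (interior (Icc (0 : R3) 1)).Nonempty := by
    refine ⟨fun _ => 1 / 2, ?_⟩
    rw [← pi_univ_Icc, interior_pi_set finite_univ]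
    intro i _
    simp only [Pi.zero_apply, Pi.one_apply, interior_Icc]
    constructor <;> norm_num
  have hcl : Icc (0 : R3) 1 ⊆ closure (interior (Icc (0 : R3) 1)) := by
    rw [(convex_Icc (𝕜 := ℝ) (0 : R3) 1).closure_interior_eq_closure_of_nonempty_interior hne]
    exact subset_closure
  have heq : EqOn F 0 (Icc (0 : R3) 1) :=
    Measure.eqOn_of_ae_eq h1 hF.continuousOn continuousOn_const hcl
  intro x hx
  exact heq hx

/-- Swapping the integrals. -/
theorem integral_swap_nonpos (T : ℝ) (H : ℝ → R3 → ℝ)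
    (hH : ContinuousOn (fun z : ℝ × R3 => H z.1 z.2) (Icc 0 T ×ˢ univ))
    (hle : ∀ s ∈ Icc 0 T, ∫ x in Icc (0 : R3) 1, H s x ≤ 0) (t : ℝ) (ht : t ∈ Icc 0 T) :
    ∫ x in Icc (0 : R3) 1, (∫ s in (0 : ℝ)..t, H s x) ≤ 0 := by
  simp_rw [intervalIntegral.integral_of_le ht.1]
  rw [integral_integral_swap]
  · apply integral_nonpos_of_ae
    rw [Filter.EventuallyLE, ae_restrict_iff' measurableSet_Ioc]
    exact Filter.Eventually.of_forall (fun s hs => hle s ⟨hs.1.le, hs.2.trans ht.2⟩)
  · have hprod : (volume.restrict (Icc (0 : R3) 1)).prod (volume.restrict (Ioc 0 t))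
        = (volume : Measure (R3 × ℝ)).restrict (Icc (0 : R3) 1 ×ˢ Ioc 0 t) := by
      rw [Measure.prod_restrict]
      rfl
    rw [hprod]
    have hc' : ContinuousOn (fun z : R3 × ℝ => H z.2 z.1) (Icc (0 : R3) 1 ×ˢ Icc 0 t) := by
      have hsw : ContinuousOn (fun z : R3 × ℝ => ((z.2, z.1) : ℝ × R3))
        (Icc (0 : R3) 1 ×ˢ Icc 0 t) := by fun_prop
      exact hH.comp hsw (fun z hz => ⟨⟨hz.2.1, hz.2.2.trans ht.2⟩, mem_univ _⟩)
    have hi : IntegrableOn (fun z : R3 × ℝ => H z.2 z.1) (Icc (0 : R3) 1 ×ˢ Icc 0 t) :=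
      hc'.integrableOn_compact (isCompact_Icc.prod isCompact_Icc)
    exact hi.mono_set (prod_mono_right Ioc_subset_Icc_self)

section

variable {ν : ℝ} {T : ℝ} {g c : ℝ → R3} {v : VField} {q : SField}

/-- The time derivative of the energy density. -/
noncomputable def enDer (T : ℝ) (g c : ℝ → R3) (v : VField) (s : ℝ) (x : R3) : ℝ :=
  ∑ i, 2 * (v s x i - c s i) * (derivWithin (fun r => v r x i) (Icc 0 T) s - g s i)

theorem enDer_cont (hcc : ∀ i, ContinuousOn (fun t => c t i) (Icc 0 T))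
    (hg : ∀ i, ContinuousOn (fun t => g t i) (Icc 0 T))
    (h : IsClassicalSolution ν (fun t _ => g t) T v q) :
    ContinuousOn (fun z : ℝ × R3 => enDer T g c v z.1 z.2) (Icc 0 T ×ˢ univ) := by
  unfold enDer
  apply continuousOn_finsetSum
  intro i _
  have hfst : ContinuousOn (fun z : ℝ × R3 => c z.1 i) (Icc 0 T ×ˢ univ) :=
    (hcc i).comp continuous_fst.continuousOn (fun z hz => hz.1)
  have hgst : ContinuousOn (fun z : ℝ × R3 => g z.1 i) (Icc 0 T ×ˢ univ) :=
    (hg i).comp continuous_fst.continuousOn (fun z hz => hz.1)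
  have hcu : ContinuousOn (fun z : ℝ × R3 => v z.1 z.2 i) (Icc 0 T ×ˢ univ) := h.cont_u i
  have hct : ContinuousOn (fun z : ℝ × R3 => derivWithin (fun r => v r z.2 i) (Icc 0 T) z.1)
    (Icc 0 T ×ˢ univ) := h.cont_dt i
  exact (continuousOn_const.mul (hcu.sub hfst)).mul (hct.sub hgst)

theorem enDer_ftc (hc0 : c 0 = 0)
    (hc : ∀ t ∈ Icc 0 T, ∀ i, HasDerivWithinAt (fun s => c s i) (g t i) (Icc 0 T) t)
    (hg : ∀ i, ContinuousOn (fun t => g t i) (Icc 0 T))
    (h : IsClassicalSolution ν (fun t _ => g t) T v q) (t : ℝ) (ht : t ∈ Icc 0 T) (x : R3) :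
    ∑ i, (v t x i - c t i) ^ 2 = ∫ s in (0 : ℝ)..t, enDer T g c v s x := by
  have hcc : ∀ i, ContinuousOn (fun t => c t i) (Icc 0 T) := fun i t ht =>
    (hc t ht i).continuousWithinAt
  have hd : ∀ s ∈ Icc 0 T, HasDerivWithinAt (fun r => ∑ i, (v r x i - c r i) ^ 2)
      (enDer T g c v s x) (Icc 0 T) s := by
    intro s hs
    apply HasDerivWithinAt.fun_sum
    intro i _
    have h1 := ((h.time_diff x i) s hs).hasDerivWithinAt
    have h2 := (h1.fun_sub (hc s hs i)).fun_pow 2
    refine h2.congr_deriv ?_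
    push_cast
    ring
  have hcont : ContinuousOn (fun r => ∑ i, (v r x i - c r i) ^ 2) (Icc 0 t) := by
    intro s hs
    exact ((hd s ⟨hs.1, hs.2.trans ht.2⟩).continuousWithinAt).mono
      (Icc_subset_Icc_right ht.2)
  have hint : ContinuousOn (fun s => enDer T g c v s x) (Icc 0 t) := by
    have : ContinuousOn (fun s : ℝ => ((s, x) : ℝ × R3)) (Icc 0 t) := by fun_prop
    exact (enDer_cont hcc hg h).comp this (fun s hs => ⟨⟨hs.1, hs.2.trans ht.2⟩, mem_univ _⟩)
  rw [intervalIntegral.integral_eq_sub_of_hasDerivAt_of_le ht.1 hcont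
    (fun s hs => (hd s ⟨hs.1.le, hs.2.le.trans ht.2⟩).hasDerivAt
      (Icc_mem_nhds hs.1 (hs.2.trans_le ht.2)))
    (by
      apply ContinuousOn.intervalIntegrable
      rwa [uIcc_of_le ht.1])]
  simp [h.initial, hc0]

theorem enDer_integral_le (hν : 0 ≤ ν)
    (h : IsClassicalSolution ν (fun t _ => g t) T v q) (s : ℝ) (hs : s ∈ Icc 0 T) :
    ∫ x in Icc (0 : R3) 1, enDer T g c v s x ≤ 0 := by
  have he := energy_integral_le ν hν (fun i x => v s x i) (q s) (c s)
    (fun i => isClass_two.1 (h.space_diff s hs i)) (isClass_one.1 (h.p_diff s hs))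
    (fun i x k => by rw [h.periodic_u s hs x k])
    (fun x k => h.periodic_p s hs x k) (h.div_free s hs)
  refine le_trans (le_of_eq ?_) he
  congr 1
  funext x
  apply Finset.sum_congr rfl
  intro i _
  have hm := h.momentum s hs x i
  have : derivWithin (fun r => v r x i) (Icc 0 T) s - g s i
      = -(∑ j, v s x j * dX j (fun y => v s y i) x) - dX i (q s) x
        + ν * ∑ j, dX j (dX j (fun y => v s y i)) x := by
    linarith
  rw [this]

theorem velocity_unique (hν : 0 ≤ ν) (hc0 : c 0 = 0)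
    (hc : ∀ t ∈ Icc 0 T, ∀ i, HasDerivWithinAt (fun s => c s i) (g t i) (Icc 0 T) t)
    (hg : ∀ i, ContinuousOn (fun t => g t i) (Icc 0 T))
    (h : IsClassicalSolution ν (fun t _ => g t) T v q) :
    ∀ t ∈ Icc 0 T, ∀ x, v t x = c t := by
  intro t ht
  have hcc : ∀ i, ContinuousOn (fun t => c t i) (Icc 0 T) := fun i t ht =>
    (hc t ht i).continuousWithinAt
  have hcx : Continuous (fun x => ∑ i, (v t x i - c t i) ^ 2) :=
    continuous_finsetSum _ (fun i _ =>
      (((isClass_two.1 (h.space_diff t ht i)).continuous).sub continuous_const).pow 2)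
  have hE : ∫ x in Icc (0 : R3) 1, ∑ i, (v t x i - c t i) ^ 2 ≤ 0 := by
    simp_rw [enDer_ftc hc0 hc hg h t ht]
    exact integral_swap_nonpos T _ (enDer_cont hcc hg h) (enDer_integral_le hν h) t ht
  have hz := eqOn_cube_of_integral_nonpos _ hcx
    (fun x => Finset.sum_nonneg (fun i _ => sq_nonneg _)) hE
  have hcube : ∀ x ∈ Icc (0 : R3) 1, v t x = c t := by
    intro x hx
    have h1 := hz x hx
    rw [Finset.sum_eq_zero_iff_of_nonneg (fun i _ => sq_nonneg _)] at h1
    funext i
    have h2 := h1 i (Finset.mem_univ i)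
    have h3 := (pow_eq_zero_iff (two_ne_zero)).1 h2
    linarith
  intro x
  have hfr : x = (fun i => Int.fract (x i)) + fun i => ((⌊x i⌋ : ℤ) : ℝ) := by
    funext i
    simp
  rw [hfr, h.periodic_u t ht]
  apply hcube
  exact ⟨fun i => Int.fract_nonneg _, fun i => (Int.fract_lt_one _).le⟩

/-- Uniqueness of classical solutions for a spatially constant force. -/
theorem classical_unique (hν : 0 ≤ ν) (hT : 0 < T) (hc0 : c 0 = 0)
    (hc : ∀ t ∈ Icc 0 T, ∀ i, HasDerivWithinAt (fun s => c s i) (g t i) (Icc 0 T) t)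
    (hg : ∀ i, ContinuousOn (fun t => g t i) (Icc 0 T))
    (h : IsClassicalSolution ν (fun t _ => g t) T v q) :
    ∀ t ∈ Icc 0 T, ∀ x, v t x = c t ∧ q t x = 0 := by
  have hv := velocity_unique hν hc0 hc hg h
  intro t ht x
  refine ⟨hv t ht x, ?_⟩
  -- the pressure gradient vanishes
  have hvfun : ∀ i, (fun y => v t y i) = fun _ => c t i := by
    intro i
    funext y
    rw [hv t ht y]
  have hgrad : ∀ y i, dX i (q t) y = 0 := by
    intro y i
    have hm := h.momentum t ht y i
    have hdt : derivWithin (fun s => v s y i) (Icc 0 T) t = g t i := by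
      have : HasDerivWithinAt (fun s => v s y i) (g t i) (Icc 0 T) t := by
        apply (hc t ht i).congr
        · intro s hs
          rw [hv s hs y]
        · rw [hv t ht y]
      exact this.derivWithin (uniqueDiffOn_Icc hT t ht)
    have h1 : ∀ j, dX j (fun y => v t y i) = fun _ => 0 := by
      intro j
      funext z
      rw [hvfun i]
      exact dX_const j _
    rw [hdt] at hm
    simp only [h1, dX_const, mul_zero, Finset.sum_const_zero, add_zero] at hm
    linarith
  have hfd : ∀ y, fderiv ℝ (q t) y = 0 := by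
    intro y
    ext w
    have hw : w = ∑ i, w i • (Pi.single i (1 : ℝ) : R3) := by
      funext j
      simp [Finset.sum_apply, Pi.single_apply]
    rw [hw, map_sum]
    simp only [map_smul]
    rw [zero_apply]
    apply Finset.sum_eq_zero
    intro i _
    have := hgrad y i
    unfold dX at this
    rw [this]
    simp
  have hconst : ∀ y, q t y = q t x := fun y =>
    is_const_of_fderiv_eq_zero
      ((isClass_one.1 (h.p_diff t ht)).differentiable (by norm_num)) hfd y x
  have hmean := h.mean_p t ht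
  simp_rw [hconst] at hmean
  rw [setIntegral_const] at hmean
  have hvol : (volume : Measure R3).real (Icc 0 1) = 1 := by
    simp [Measure.real, Real.volume_Icc_pi]
  rw [hvol] at hmean
  simpa using hmean

end

end Vale.Agent.P113
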